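import Vale.Agent.Lib.P232.Cells

namespace Vale.Agent.Lib.P232.Cells

/-- The certificate tree. -/
def cellData : CellTree :=
  (CellTree.splitH 256 (CellTree.splitK 800 (CellTree.splitH 128 (CellTree.splitK 688 (CellTree.splitH 64 (CellTree.splitK 632 (CellTree.splitH 32 CellTree.skip (CellTree.splitK 604 (CellTree.splitH 48 CellTree.skip (CellTree.leaf false (347629) (10124) 16)) (CellTree.leaf true (358275) (6908) 2))) (CellTree.splitH 32 CellTree.skip (CellTree.leaf true (330409) (6935) 8))) (CellTree.splitK 632 (CellTree.splitH 96 (CellTree.splitK 604 (CellTree.leaf false (338804) (13194) 32) (CellTree.leaf false (309145) (13310) 16)) (CellTree.splitK 604 (CellTree.leaf false (322275) (18945) 32) (CellTree.leaf false (293692) (19196) 32))) (CellTree.splitH 96 (CellTree.leaf true (316349) (13282) 16) (CellTree.splitK 660 (CellTree.leaf false (268774) (19415) 32) (CellTree.leaf false (246916) (19607) 32))))) (CellTree.splitH 64 (CellTree.splitK 744 (CellTree.leaf true (319750) (-2) 2) CellTree.skip) (CellTree.leaf true (275341) (13442) 16))) (CellTree.splitK 688 (CellTree.splitH 192 (CellTree.splitK 632 (CellTree.splitH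 160 (CellTree.leaf false (279313) (24673) 16) (CellTree.leaf false (265835) (29807) 32)) (CellTree.splitH 160 (CellTree.splitK 660 (CellTree.leaf false (255210) (25050) 64) (CellTree.leaf false (234130) (25379) 32)) (CellTree.splitK 660 (CellTree.leaf false (242379) (30380) 64) (CellTree.leaf false (221947) (30879) 32)))) (CellTree.splitK 632 (CellTree.splitH 224 (CellTree.leaf false (253097) (34659) 32) (CellTree.leaf false (240947) (39288) 16)) (CellTree.splitH 224 (CellTree.splitK 660 (CellTree.leaf false (230135) (35467) 32) (CellTree.leaf false (210234) (36166) 32)) (CellTree.splitK 660 (CellTree.leaf false (218332) (40370) 32) (CellTree.leaf false (198858) (41302) 16))))) (CellTree.splitH 192 (CellTree.splitK 744 (CellTree.splitH 160 (CellTree.leaf true (270420) (24812) 32) (CellTree.splitK 716 (CellTree.leaf false (204033) (31316) 32) (CellTree.leaf false (188234) (31702) 32))) (CellTree.leaf false (171561) (26357) 8)) (CellTree.splitK 744 (CellTree.splitH 224 (CellTree.splitK 716 (CellTree.leaf false (192864) (36777) 32) (CellTree.leaf false (177604) (37313) 32)) (CellTree.splitK 716 (CellTree.leaf false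 (181954) (42111) 16) (CellTree.leaf false (167177) (42818) 32))) (CellTree.leaf false (152143) (38209) 32))))) (CellTree.splitH 128 (CellTree.splitK 912 (CellTree.leaf true (233687) (-2) 64) (CellTree.leaf true (185363) (-2) 64)) (CellTree.splitK 912 (CellTree.splitH 192 (CellTree.leaf true (201036) (25896) 64) (CellTree.splitK 856 (CellTree.splitH 224 (CellTree.leaf true (202231) (36448) 64) (CellTree.leaf false (116769) (45230) 64)) (CellTree.leaf true (168142) (37646) 64))) (CellTree.leaf false (-29501) (29498) 16)))) (CellTree.splitK 800 (CellTree.splitH 384 (CellTree.splitK 688 (CellTree.splitH 320 (CellTree.splitK 632 (CellTree.splitH 288 (CellTree.splitK 604 (CellTree.leaf false (255740) (42094) 64) (CellTree.leaf false (229232) (43750) 32)) (CellTree.splitK 604 (CellTree.leaf false (244526) (45995) 64) (CellTree.leaf false (217787) (48110) 32))) (CellTree.splitH 288 (CellTree.splitK 660 (CellTree.leaf false (206823) (45151) 16) (CellTree.leaf false (187681) (46347) 16)) (CellTree.splitK 660 (CellTree.leaf false (195446) (49877) 8) (CellTree.leaf false (176550) (51372) 8)))) (CellTree.splitK 632 (CellTree.splitH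 352 (CellTree.splitK 604 (CellTree.leaf false (233646) (49780) 64) (CellTree.leaf false (206423) (52439) 8)) (CellTree.splitK 604 (CellTree.leaf false (222903) (53518) 32) (CellTree.splitH 368 (CellTree.leaf false (194904) (56827) 8) (CellTree.leaf false (188991) (59079) 4)))) (CellTree.splitH 352 (CellTree.splitK 660 (CellTree.splitH 336 (CellTree.leaf false (184011) (54627) 8) (CellTree.leaf false (178201) (57041) 8)) (CellTree.leaf false (165288) (56456) 8)) (CellTree.splitK 660 (CellTree.splitH 368 (CellTree.leaf false (172283) (59500) 4) (CellTree.leaf false (166214) (62020) 4)) (CellTree.leaf false (153674) (61698) 8))))) (CellTree.splitH 320 (CellTree.splitK 744 (CellTree.splitH 288 (CellTree.leaf false (156839) (48275) 2) (CellTree.leaf false (146465) (53752) 4)) (CellTree.leaf false (133233) (49750) 32)) (CellTree.splitK 744 (CellTree.splitH 352 (CellTree.leaf false (135907) (59325) 8) (CellTree.leaf false (124990) (65088) 16)) (CellTree.leaf false (113552) (61508) 64)))) (CellTree.splitK 688 (CellTree.splitH 448 (CellTree.splitK 632 (CellTree.splitH 416 (CellTree.splitK 604 (CellTree.leaf false (212032)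 (57300) 4) (CellTree.splitH 400 (CellTree.splitK 618 (CellTree.leaf false (196561) (59476) 16) (CellTree.leaf false (182909) (61396) 16)) (CellTree.splitK 618 (CellTree.leaf false (190520) (61676) 16) (CellTree.leaf false (176594) (63801) 16)))) (CellTree.splitK 604 (CellTree.splitH 432 (CellTree.leaf false (200640) (61264) 8) (CellTree.leaf false (194556) (63380) 4)) (CellTree.splitH 432 (CellTree.leaf false (169965) (66326) 2) (CellTree.leaf false (162915) (69012) 8)))) (CellTree.splitH 416 (CellTree.splitK 660 (CellTree.splitH 400 (CellTree.leaf false (159945) (64625) 4) (CellTree.leaf false (153414) (67338) 8)) (CellTree.leaf false (141420) (67230) 16)) (CellTree.splitK 660 (CellTree.leaf false (146545) (70191) 4) (CellTree.leaf false (128126) (73231) 32)))) (CellTree.splitK 632 (CellTree.splitH 480 (CellTree.splitK 604 (CellTree.splitH 464 (CellTree.leaf false (188055) (65642) 8) (CellTree.leaf false (180951) (68114) 16)) (CellTree.leaf false (155304) (71911) 1)) (CellTree.splitK 604 (CellTree.leaf false (172966) (70892) 16) (CellTree.leaf false (137551) (78673) 32))) (CellTree.splitH 480 (CellTree.leaf false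 (113197) (79970) 16) (CellTree.leaf false (83109) (90636) 64)))) (CellTree.splitH 448 (CellTree.splitK 744 (CellTree.leaf false (113493) (71157) 4) (CellTree.leaf false (68024) (77551) 64)) (CellTree.leaf false (61002) (89961) 64)))) (CellTree.splitH 384 (CellTree.splitK 912 (CellTree.splitH 320 (CellTree.splitK 856 (CellTree.leaf false (101934) (51706) 64) (CellTree.leaf false (60957) (54267) 64)) (CellTree.splitK 856 (CellTree.leaf false (64924) (66257) 64) (CellTree.leaf false (21074) (70539) 64))) (CellTree.leaf false (-61952) (61949) 64)) (CellTree.leaf false (-101376) (101373) 64))))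

theorem cellData_ok : checkTree cellData 0 512 577 1024 = true := by
  decide +kernel

end Vale.Agent.Lib.P232.Cells
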