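import Vale.Agent.Lib.P232.Profiles

/-!
# P232: the bulk certificate for the one-dimensional inequality

A binary tree of boxes in the coordinates `h = √m`, `k = √M` (all box corners are multiples of
`1/1024`), with a fixed rational line on every leaf.  On a leaf the line is admissible on the
largest level range of the box, and its value is bounded below by a Riemann sum on the smallest
level range of the box, with integer arithmetic that the kernel evaluates.
-/

namespace Vale.Agent.Lib.P232.Cells

open Real MeasureTheory Set intervalIntegral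

/-! ## Arithmetic layer -/

/-- Newton iteration from above for the integer square root; the output squares to at most `a`. -/
def isqAux : ℕ → ℕ → ℕ → ℕ
  | 0, _, _ => 0
  | f + 1, a, x => if x * x ≤ a then x else isqAux f a ((x + a / x) / 2)

/-- Integer square root. -/
def isq (a : ℕ) : ℕ := isqAux 24 a (2 ^ (Nat.log2 a / 2 + 1))

lemma isqAux_sq_le : ∀ (f a x : ℕ), isqAux f a x * isqAux f a x ≤ a
  | 0, a, _ => by simp [isqAux]
  | f + 1, a, x => by
    unfold isqAux
    split_ifs with h
    · exact h
    · exact isqAux_sq_le f a _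

lemma isq_sq_le (a : ℕ) : isq a * isq a ≤ a := isqAux_sq_le _ _ _

/-- Second coordinate on the unit circle at node `j`, from below. -/
def rr (j : ℕ) : ℕ := if j ≤ 823 then 608 else isq (1048576 - j * j)

/-- Lower bound at node `j` for the profile (`false`: `IT`, `true`: `IE`), over `1024000000`. -/
def tnode (ty : Bool) (j : ℕ) : ℕ :=
  if ty then min (2 * 1772453 * j) (2 * 1414213 * 1024)
  else if rr j * rr j + j * j ≤ 1048576 then
    min (min (2 * 1772453 * j) (2 * 1000000 * 1024)) (2 * 1772453 * rr j)
  else 0

/-- The line `(L s + B) / 65536` at the node `s = (j/1024)²`, over `68719476736`. -/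
def qn (L B : ℤ) (j : ℕ) : ℤ := L * ((j : ℤ) * (j : ℤ)) + B * 1048576

/-- Rounded up ratio of line to profile at a node, over `16384`. -/
def rhoN (ty : Bool) (L B : ℤ) (j : ℕ) : ℕ :=
  ((qn L B j).toNat * (16384 * 1024000000) + tnode ty j * 68719476736 - 1) /
    (tnode ty j * 68719476736)

/-- Lower bound for the integrand on one cell of the Riemann sum, over `16384`. -/
def stepC (ty : Bool) (L B : ℤ) (j j2 : ℕ) : ℕ :=
  let R := max (rhoN ty L B j) (rhoN ty L B j2)
  if qn L B j * (16384 * 1024000000) ≤ ((R * tnode ty j * 68719476736 : ℕ) : ℤ) ∧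
      qn L B j2 * (16384 * 1024000000) ≤ ((R * tnode ty j2 * 68719476736 : ℕ) : ℤ) ∧
      R ≤ 16384 then
    isq (16384 * 16384 - R * R)
  else 0

/-- The Riemann sum from node `j` to node `j1` with step `st`, over `16384 * 1048576`. -/
def sumC (ty : Bool) (L B : ℤ) (st : ℕ) : ℕ → ℕ → ℕ → ℕ
  | 0, _, _ => 0
  | f + 1, j, j1 =>
    if j < j1 then
      stepC ty L B j (min (j + st) j1) * (min (j + st) j1 * min (j + st) j1 - j * j) +
        sumC ty L B st f (min (j + st) j1) j1
    else 0

/-- Numerator (over `2^50`) of the constant term of the value on a leaf. -/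
def gnumOf (ty : Bool) (L B : ℤ) (st b c : ℕ) : ℤ :=
  B * (16384 * 1048576) + 2 * (sumC ty L B st 2048 b c : ℤ) * 65536 -
    (if ty then 4 * ((b : ℤ) * b) * (65536 * 16384) else 0)

/-- The V-free test: `JJ V ≤ (L/65536) V + g/2^50` by one of four elementary reasons. -/
def kOK (L g : ℤ) : Bool :=
  (decide (0 < L) && decide (16 * 3141593 * 1125899906842624 * (65536 * 65536) ≤
      3 * g * L * L * 1000000)) ||
  (decide (0 < L) && decide (3141593 * 1125899906842624 * 65536 ≤ g * L * 1000000)) ||
  (decide (9 * 65536 ≤ 2 * L) && decide (L ≤ 6 * 65536) &&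
    decide (4 * 3141593 * (9 * 65536 - L) * 1125899906842624 ≤ g * 81 * 65536 * 1000000)) ||
  (decide (L * 100 ≤ 354 * 65536) &&
    decide ((4 * 1772454 * 65536 - L * 1000000) * 1125899906842624 ≤ g * 65536 * 4 * 1000000))

/-- The test on a leaf. -/
def leafOK (ty : Bool) (L B : ℤ) (st a b c d : ℕ) : Bool :=
  decide (a ≤ b) && decide (b < c) && decide (c ≤ d) && decide (d ≤ 1024) &&
    decide (qn L B a * 1024000000 ≤ ((tnode ty a * 68719476736 : ℕ) : ℤ)) &&
    decide (qn L B d * 1024000000 ≤ ((tnode ty d * 68719476736 : ℕ) : ℤ)) &&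
    kOK L (gnumOf ty L B st b c)

/-- The tree of boxes. -/
inductive CellTree where
  | skip : CellTree
  | leaf (ty : Bool) (L B : ℤ) (st : ℕ) : CellTree
  | splitH (mid : ℕ) (l r : CellTree) : CellTree
  | splitK (mid : ℕ) (l r : CellTree) : CellTree

/-- The test on a tree, for the box with corners `a/1024, b/1024` in `h`, `c/1024, d/1024` in `k`. -/
def checkTree : CellTree → ℕ → ℕ → ℕ → ℕ → Bool
  | .skip, _, b, c, d =>
    decide (100 * b ≤ 9 * c) && decide (31416 * (d * d) ≤ 20000 * 1048576)
  | .leaf ty L B st, a, b, c, d => leafOK ty L B st a b c d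
  | .splitH mid l r, a, b, c, d =>
    decide (a ≤ mid) && decide (mid ≤ b) && checkTree l a mid c d && checkTree r mid b c d
  | .splitK mid l r, a, b, c, d =>
    decide (c ≤ mid) && decide (mid ≤ d) && checkTree l a b c mid && checkTree r a b mid d

end Vale.Agent.Lib.P232.Cells
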