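import Vale.Agent.Lib.P232.Cells

/-!
# P232: the hump certificate, the integer test

A binary tree of boxes in `(M, d)`, with a fixed rational line on every leaf, checked in integer
arithmetic: nodes `s = (j/1024)²`, `d = D/2²⁰`, profile values over `1024000000`, ratios over `65536`.
Because the line starts below zero and is increasing, the profiles on `[0, s]` are handled by the right
end point of each cell.
-/

namespace Vale.Agent.Lib.P232.Hump

open Cells

/-- The numerators of `thetaTab`, over `100000`. -/
def thetaL : List ℕ :=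
  [100000, 99957, 99832, 99622, 99328, 98947, 98478, 97918, 97264, 96513, 95660, 94699, 93624, 92425,
   91091, 89608, 87954, 86101, 84002, 81571, 78538]

/-- Table look-up. -/
def thN (i : ℕ) : ℕ := thetaL.getD i 0

/-- `xline i (a/2²⁰)` from below, over `1024000000`. -/
def xv (i a : ℕ) : ℕ := i * a * 3125 / 32 + 20480 * thN i

/-- `xline i (a/2²⁰)` from above, over `1024000000`. -/
def xvU (i a : ℕ) : ℕ := (i * a * 3125 + 31) / 32 + 20480 * thN i

/-- Move the index up as long as the value improves. -/
def nextI (imax a : ℕ) : ℕ → ℕ → ℕ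
  | 0, i => i
  | f + 1, i => if i < imax ∧ xv i a ≤ xv (i + 1) a then nextI imax a f (i + 1) else i

/-- `CL (j/1024)² (1 - T/2²⁰)` from below, over `1024000000`. -/
def cln (T j : ℕ) : ℕ :=
  if T * T * 3141593 ≤ 4 * (1048576 - j * j) * 1048576000000 then
    2048000000 * (1048576 - j * j) / T + 3141592 * T / 2048
  else 3544906 * isqAux 24 (1048576 - j * j) 1024

/-- The value of `xhat` at the node from below, with the index `i`. -/
def xlo (D2 i j : ℕ) : ℕ := if D2 < j * j then xv i (j * j - D2) else 2048000000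

/-- The index at a node. -/
def idxN (imax D2 j i : ℕ) : ℕ := if D2 < j * j then nextI imax (j * j - D2) 21 i else i

/-- The profile from below at a node. -/
def Ibn (T D2 i j : ℕ) : ℕ := min (min (tnode true j) (cln T j)) (xlo D2 i j)

/-- The positive part of the line `(L s - Bn)/65536` at a node, over `2³⁶`. -/
def qN (L Bn j : ℕ) : ℕ := L * (j * j) - Bn * 1048576

/-- The integrand on all `s ≤ (j2/1024)²` from below, over `65536`. -/
def stepH (L Bn T D2 i j2 : ℕ) : ℕ :=
  let I := 16 * Ibn T D2 i j2
  let q := qN L Bn j2 * 15625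
  let R := (q + I - 1) / I
  if q ≤ R * I ∧ R ≤ 65536 then isqAux 24 (4294967296 - R * R) 65536 else 0

/-- The Riemann sum from node `j` to node `c`, over `2³⁶`. -/
def sumH (L Bn T D2 imax st c : ℕ) : ℕ → ℕ → ℕ → ℕ
  | 0, _, _ => 0
  | f + 1, j, i =>
    if j < c then
      stepH L Bn T D2 (idxN imax D2 (min (j + st) c) i) (min (j + st) c) *
          (min (j + st) c * min (j + st) c - j * j) +
        sumH L Bn T D2 imax st c f (min (j + st) c) (idxN imax D2 (min (j + st) c) i)
    else 0

/-- `IE` at a node from above, over `1024000000`. -/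
def ieUp (j : ℕ) : ℕ := min (2 * 1772454 * j) (2 * 1414214 * 1024)

/-- `xhat` from above, over `1024000000`. -/
def xmaxU (a : ℕ) : ℕ := (List.range 21).foldr (fun k acc => max (xvU k a) acc) 0

/-- The profile at a node from above, without the `CL` part. -/
def upU (D1 j : ℕ) : ℕ :=
  if D1 < j * j then min (ieUp j) (xmaxU (j * j - D1)) else min (ieUp j) 2048000000

/-- The test of the lower bound `BB/65536` of the gain on a chain of cells up to node `e`. -/
def gainOK (L Bn BB T D1 e : ℕ) : ℕ → ℕ → Bool
  | 0, j => decide (e ≤ j)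
  | f + 1, j =>
    if e ≤ j then true else
      decide (0 < upU D1 (min e (j + max 1 ((e - j) / 8)))) &&
      decide (upU D1 (min e (j + max 1 ((e - j) / 8))) ≤ cln T (min e (j + max 1 ((e - j) / 8)))) &&
      decide (BB * upU D1 (min e (j + max 1 ((e - j) / 8))) * 1048576 ≤
        qN L Bn j * (cln T (min e (j + max 1 ((e - j) / 8))) -
          upU D1 (min e (j + max 1 ((e - j) / 8))))) &&
      gainOK L Bn BB T D1 e f (min e (j + max 1 ((e - j) / 8)))

/-- The largest index allowed by the slope of the line. -/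
def imaxOf (L : ℕ) : ℕ := min 20 (10 * L / 65536)

/-- `1 - d` from above for the bound of `CL`. -/
def tOf (D1 : ℕ) : ℕ := 1048576 - min D1 943718

/-- The V-free test for the value: `LH` over `500·2³⁶` is the constant term plus `2 ezero`, with the
right-hand constants in `RH`. -/
def kOKh (L LH RH : ℕ) : Bool :=
  (decide (L * 1000000 ≤ 3141592 * 65536) &&
    decide (3141593 * (RH + 68719476736000) ≤ 3141593 * LH + L * 1000000 * 524288000)) ||
  (decide (0 < L) && decide (RH ≤ LH) &&
    decide (3141593 * 34359738368000 * 65536 ≤ (LH - RH) * L * 1000000)) ||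
  (decide (3544908 * 65536 ≤ L * 1000000) &&
    decide (1000000 * RH + 1772454 * 34359738368000 ≤ 1000000 * LH + 1000000 * L * 131072000))

/-- The test on a leaf. -/
def leafOK (L Bn BB st c e D1 D2 : ℕ) : Bool :=
  decide (e ≤ 1023) && decide (c ≤ e) &&
    decide (qN L Bn e * 15625 ≤
      65536 * (16 * Ibn (tOf D1) D2 (idxN (imaxOf L) D2 e 0) e)) &&
    kOKh L (1000 * sumH L Bn (tOf D1) D2 (imaxOf L) st c 1024 0 0 + 52428800 * BB)
      (524288000 * Bn + 68719476736) &&
    (decide (BB = 0) ||
      (decide (isqAux 24 ((2621440 - e * e) / 9) 1024 < e) &&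
        decide (2 * (9 * (isqAux 24 ((2621440 - e * e) / 9) 1024 * isqAux 24 ((2621440 - e * e) / 9) 1024) +
          e * e) ≤ 5242880) &&
        gainOK L Bn BB (tOf D1) D1 e 512 (isqAux 24 ((2621440 - e * e) / 9) 1024)))

/-- The tree of boxes. -/
inductive HTree where
  | skip : HTree
  | leaf (L Bn BB st : ℕ) : HTree
  | splitK (mid : ℕ) (l r : HTree) : HTree
  | splitD (mid : ℕ) (l r : HTree) : HTree

/-- The test on a tree, for `M ∈ [(c/1024)², (e/1024)²]`, `d ∈ [D1/2²⁰, D2/2²⁰]`. -/
def checkH : HTree → ℕ → ℕ → ℕ → ℕ → Bool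
  | .skip, _, e, D1, _ => decide (e * e < D1)
  | .leaf L Bn BB st, c, e, D1, D2 => leafOK L Bn BB st c e D1 D2
  | .splitK mid l r, c, e, D1, D2 =>
    decide (c ≤ mid) && decide (mid ≤ e) && checkH l c mid D1 D2 && checkH r mid e D1 D2
  | .splitD mid l r, c, e, D1, D2 =>
    decide (D1 ≤ mid) && decide (mid ≤ D2) && checkH l c e D1 mid && checkH r c e mid D2

end Vale.Agent.Lib.P232.Hump
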