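import Vale.Agent.Lib.P232.CertHump1

/-!
# P232: the hump certificate, the same test in primitive natural number operations

Every function here computes the same value as its counterpart in `CertHump1`.  All intermediate values
are forced to literals (`fN`), and the operations are the primitive ones, so that the kernel evaluates
the test with few steps and little memory.
-/

namespace Vale.Agent.Lib.P232.Hump

open Cells

/-- Force the evaluation of a natural number. -/
@[reducible] def fN {β : Type} (x : ℕ) (k : ℕ → β) : β :=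
  Nat.casesOn (motive := fun _ => β) x (k 0) (fun n => k (Nat.succ n))

lemma fN_eq {β : Type} (x : ℕ) (k : ℕ → β) : fN x k = k x := by
  cases x <;> rfl

/-- `min`. -/
def mnF (a b : ℕ) : ℕ := cond (Nat.ble a b) a b

/-- Newton iteration. -/
def isF : ℕ → ℕ → ℕ → ℕ
  | 0, _, _ => 0
  | f + 1, a, x => cond (Nat.ble (Nat.mul x x) a) x
      (fN (Nat.div (Nat.add x (Nat.div a x)) (nat_lit 2)) (isF f a))

/-- The table in one number, `17` bits for each value. -/
def thBig : ℕ := nat_lit 175906466448899895715313622984261812214592371816614670289235063668564898793030613566480486911003704353851040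

/-- Table look-up with shifts. -/
def thF (i : ℕ) : ℕ := Nat.land (Nat.shiftRight thBig (Nat.mul (nat_lit 17) i)) (nat_lit 131071)

/-- `xv`. -/
def xvF (i a : ℕ) : ℕ :=
  Nat.add (Nat.div (Nat.mul (Nat.mul i a) (nat_lit 3125)) (nat_lit 32)) (Nat.mul (nat_lit 20480) (thF i))
/-- `xvU`. -/
def xvUF (i a : ℕ) : ℕ :=
  Nat.add (Nat.div (Nat.add (Nat.mul (Nat.mul i a) (nat_lit 3125)) (nat_lit 31)) (nat_lit 32))
    (Nat.mul (nat_lit 20480) (thF i))

/-- `nextI`. -/
def nextIF (imax a : ℕ) : ℕ → ℕ → ℕ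
  | 0, i => i
  | f + 1, i =>
    cond (and (Nat.ble (Nat.succ i) imax) (Nat.ble (xvF i a) (xvF (Nat.succ i) a)))
      (fN (Nat.succ i) (nextIF imax a f)) i

/-- `cln`, with the values `TT = T T 3141593`, `TL = 3141592 T / 2048`, and `jj = j j`. -/
def clnF (T TT TL jj : ℕ) : ℕ :=
  fN (Nat.sub (nat_lit 1048576) jj) fun U =>
  cond (Nat.ble TT (Nat.mul (Nat.mul (nat_lit 4) U) (nat_lit 1048576000000)))
    (Nat.add (Nat.div (Nat.mul (nat_lit 2048000000) U) T) TL)
    (Nat.mul (nat_lit 3544906) (isF (nat_lit 24) U (nat_lit 1024)))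

/-- The end of `stepH`, with the profile value `Ib`. -/
def stepIb (L BN jj Ib : ℕ) : ℕ :=
  fN (Nat.mul (nat_lit 16) Ib) fun I =>
  fN (Nat.mul (Nat.sub (Nat.mul L jj) BN) (nat_lit 15625)) fun q =>
  fN (Nat.div (Nat.sub (Nat.add q I) (nat_lit 1)) I) fun R =>
  cond (and (Nat.ble q (Nat.mul R I)) (Nat.ble R (nat_lit 65536)))
    (isF (nat_lit 24) (Nat.sub (nat_lit 4294967296) (Nat.mul R R)) (nat_lit 65536)) (nat_lit 0)

/-- `stepH`, with `BN = Bn 2²⁰`. -/
def stepF (L BN T TT TL D2 i j jj : ℕ) : ℕ :=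
  fN (mnF (mnF (mnF (Nat.mul (nat_lit 3544906) j) (nat_lit 2896308224)) (clnF T TT TL jj))
    (cond (Nat.ble (Nat.succ D2) jj) (xvF i (Nat.sub jj D2)) (nat_lit 2048000000))) (stepIb L BN jj)

/-- `sumH` with an accumulator. -/
def sumF (L BN T TT TL D2 imax st c : ℕ) : ℕ → ℕ → ℕ → ℕ → ℕ
  | 0, _, _, acc => acc
  | f + 1, j, i, acc =>
    cond (Nat.ble (Nat.succ j) c)
      (fN (mnF (Nat.add j st) c) fun j2 =>
       fN (Nat.mul j2 j2) fun jj =>
       fN (cond (Nat.ble (Nat.succ D2) jj) (nextIF imax (Nat.sub jj D2) (nat_lit 21) i) i) fun i2 =>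
       fN (Nat.add acc (Nat.mul (stepF L BN T TT TL D2 i2 j2 jj) (Nat.sub jj (Nat.mul j j)))) fun acc2 =>
       sumF L BN T TT TL D2 imax st c f j2 i2 acc2)
      acc

/-- `xmaxU`. -/
def xmaxF (a : ℕ) : ℕ :=
  (List.range 21).foldr (fun k acc => cond (Nat.ble (xvUF k a) acc) acc (xvUF k a)) 0

/-- `upU` with `jj = j j`. -/
def upF (D1 j jj : ℕ) : ℕ :=
  fN (mnF (Nat.mul (nat_lit 3544908) j) (nat_lit 2896310272)) fun ie =>
  cond (Nat.ble (Nat.succ D1) jj)
    (mnF ie (xmaxF (Nat.sub jj D1)))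
    (mnF ie (nat_lit 2048000000))

/-- `gainOK`. -/
def gainF (L Bn BB T TT TL D1 e : ℕ) : ℕ → ℕ → Bool
  | 0, j => Nat.ble e j
  | f + 1, j =>
    cond (Nat.ble e j) true
      (fN (mnF e (Nat.add j (cond (Nat.ble (Nat.div (Nat.sub e j) (nat_lit 8)) (nat_lit 1)) (nat_lit 1)
          (Nat.div (Nat.sub e j) (nat_lit 8))))) fun j2 =>
       fN (Nat.mul j2 j2) fun jj =>
       fN (upF D1 j2 jj) fun U =>
       fN (clnF T TT TL jj) fun C =>
       and (and (Nat.ble (nat_lit 1) U) (Nat.ble U C))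
        (and (Nat.ble (Nat.mul (Nat.mul BB U) (nat_lit 1048576))
            (Nat.mul (Nat.sub (Nat.mul L (Nat.mul j j)) (Nat.mul Bn (nat_lit 1048576))) (Nat.sub C U)))
          (gainF L Bn BB T TT TL D1 e f j2)))

/-- `kOKh`. -/
def kF (L LH RH : ℕ) : Bool :=
  or (or (and (Nat.ble (Nat.mul L (nat_lit 1000000)) (nat_lit 205887373312))
    (Nat.ble (Nat.mul (nat_lit 3141593) (Nat.add RH (nat_lit 68719476736000)))
      (Nat.add (Nat.mul (nat_lit 3141593) LH) (Nat.mul (Nat.mul L (nat_lit 1000000)) (nat_lit 524288000)))))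
   (and (and (Nat.ble (nat_lit 1) L) (Nat.ble RH LH))
    (Nat.ble (Nat.mul (Nat.mul (nat_lit 3141593) (nat_lit 34359738368000)) (nat_lit 65536))
      (Nat.mul (Nat.mul (Nat.sub LH RH) L) (nat_lit 1000000)))))
   (and (Nat.ble (nat_lit 232319090688) (Nat.mul L (nat_lit 1000000)))
    (Nat.ble (Nat.add (Nat.mul (nat_lit 1000000) RH) (Nat.mul (nat_lit 1772454) (nat_lit 34359738368000)))
      (Nat.add (Nat.mul (nat_lit 1000000) LH)
        (Nat.mul (Nat.mul (nat_lit 1000000) L) (nat_lit 131072000)))))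

/-- The leaf test with the computed constants. -/
def leafF2 (L Bn BB st c e D1 D2 T imax TT TL BN : ℕ) : Bool :=
  and (and (Nat.ble e (nat_lit 1023)) (Nat.ble c e))
   (fN (Nat.mul e e) fun ee =>
    fN (cond (Nat.ble (Nat.succ D2) ee) (nextIF imax (Nat.sub ee D2) (nat_lit 21) (nat_lit 0)) (nat_lit 0)) fun ie =>
    and (and (Nat.ble (Nat.mul (Nat.sub (Nat.mul L ee) BN) (nat_lit 15625))
        (Nat.mul (nat_lit 65536) (Nat.mul (nat_lit 16)
          (mnF (mnF (mnF (Nat.mul (nat_lit 3544906) e) (nat_lit 2896308224)) (clnF T TT TL ee))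
            (cond (Nat.ble (Nat.succ D2) ee) (xvF ie (Nat.sub ee D2)) (nat_lit 2048000000))))))
      (kF L (Nat.add (Nat.mul (nat_lit 1000) (sumF L BN T TT TL D2 imax st c (nat_lit 1024) (nat_lit 0) (nat_lit 0) (nat_lit 0)))
          (Nat.mul (nat_lit 52428800) BB))
        (Nat.add (Nat.mul (nat_lit 524288000) Bn) (nat_lit 68719476736))))
     (or (Nat.beq BB (nat_lit 0))
      (fN (isF (nat_lit 24) (Nat.div (Nat.sub (nat_lit 2621440) ee) (nat_lit 9)) (nat_lit 1024)) fun j0 =>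
        and (and (Nat.ble (Nat.succ j0) e)
            (Nat.ble (Nat.mul (nat_lit 2) (Nat.add (Nat.mul (nat_lit 9) (Nat.mul j0 j0)) ee)) (nat_lit 5242880)))
          (gainF L Bn BB T TT TL D1 e (nat_lit 512) j0))))

/-- `leafOK`. -/
def leafF (L Bn BB st c e D1 D2 : ℕ) : Bool :=
  fN (Nat.sub (nat_lit 1048576) (mnF D1 (nat_lit 943718))) fun T =>
  fN (mnF (nat_lit 20) (Nat.div (Nat.mul (nat_lit 10) L) (nat_lit 65536))) fun imax =>
  fN (Nat.mul (Nat.mul T T) (nat_lit 3141593)) fun TT =>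
  fN (Nat.div (Nat.mul (nat_lit 3141592) T) (nat_lit 2048)) fun TL =>
  fN (Nat.mul Bn (nat_lit 1048576)) fun BN =>
  leafF2 L Bn BB st c e D1 D2 T imax TT TL BN

/-- `checkH`. -/
def checkF : HTree → ℕ → ℕ → ℕ → ℕ → Bool
  | .skip, _, e, D1, _ => Nat.ble (Nat.succ (Nat.mul e e)) D1
  | .leaf L Bn BB st, c, e, D1, D2 => leafF L Bn BB st c e D1 D2
  | .splitK mid l r, c, e, D1, D2 =>
    and (and (Nat.ble c mid) (Nat.ble mid e)) (and (checkF l c mid D1 D2) (checkF r mid e D1 D2))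
  | .splitD mid l r, c, e, D1, D2 =>
    and (and (Nat.ble D1 mid) (Nat.ble mid D2)) (and (checkF l c e D1 mid) (checkF r c e mid D2))

end Vale.Agent.Lib.P232.Hump
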