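import Vale.Agent.Lib.P232.CertHump5

/-! Certificate data for the hump: `M` between `(512/1024)²` and `(830/1024)²`. -/

namespace Vale.Agent.Lib.P232.Hump

theorem hb1_3 : BoxOK 512 830 0 262144 :=
  boxOK_of (HTree.splitK 671 (HTree.splitD 131072 (HTree.splitK 591 (HTree.leaf 402533 2 55390 32) (HTree.leaf 343221 1 22333 32)) (HTree.splitK 591 (HTree.leaf 397531 3 55005 32) (HTree.leaf 319394 3 25975 32))) (HTree.splitD 131072 (HTree.splitK 750 (HTree.leaf 294782 3 0 32) (HTree.splitD 65536 (HTree.splitK 790 (HTree.leaf 248144 0 0 32) (HTree.leaf 206854 4 0 32)) (HTree.splitK 790 (HTree.leaf 248144 0 0 32) (HTree.leaf 206854 4 0 32)))) (HTree.splitK 750 (HTree.splitD 196608 (HTree.splitK 710 (HTree.leaf 304315 0 13976 32) (HTree.leaf 283110 0 0 32)) (HTree.splitK 710 (HTree.leaf 293012 4 20262 32) (HTree.leaf 271556 0 5986 32))) (HTree.splitD 196608 (HTree.splitK 790 (HTree.leaf 248144 0 0 32) (HTree.leaf 206854 4 0 16)) (HTree.splitK 790 (HTree.leaf 248144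 0 0 16) (HTree.leaf 206854 4 0 2)))))) (by decide +kernel)

theorem hb1_5 : BoxOK 512 671 262144 524288 :=
  boxOK_of (HTree.splitD 393216 (HTree.splitK 591 (HTree.leaf 393500 4 60508 32) (HTree.leaf 306592 0 38079 32)) (HTree.splitK 591 HTree.skip (HTree.leaf 305254 0 51971 32))) (by decide +kernel)

theorem hb1_7 : BoxOK 671 830 262144 393216 :=
  boxOK_of (HTree.splitK 750 (HTree.splitD 327680 (HTree.splitK 710 (HTree.leaf 283782 3 26162 32) (HTree.leaf 261585 0 12050 4)) (HTree.splitK 710 (HTree.leaf 277139 0 32469 32) (HTree.splitD 360448 (HTree.leaf 257272 0 18463 4) (HTree.splitK 730 (HTree.leaf 264587 0 29119 32) (HTree.leaf 253561 0 21747 16))))) (HTree.splitD 327680 (HTree.splitK 790 (HTree.splitD 294912 (HTree.leaf 248144 0 0 16) (HTree.splitK 770 (HTree.leaf 252362 2 7601 16) (HTree.leaf 244167 0 0 16))) (HTree.splitD 294912 (HTree.splitK 810 (HTree.leaf 226972 0 0 32) (HTree.leaf 206854 4 0 32)) (HTree.splitK 810 (HTree.leaf 226972 0 0 32) (HTree.leaf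 206854 4 0 16)))) (HTree.splitK 790 (HTree.splitD 360448 (HTree.splitK 770 (HTree.leaf 247851 0 10707 16) (HTree.leaf 239517 0 2562 8)) (HTree.splitK 770 (HTree.leaf 243820 1 13934 8) (HTree.leaf 235263 0 5725 4))) (HTree.splitD 360448 (HTree.splitK 810 (HTree.leaf 227153 0 0 16) (HTree.leaf 206854 4 0 16)) (HTree.splitK 810 (HTree.leaf 227446 1 0 8) (HTree.leaf 207105 0 0 8)))))) (by decide +kernel)

theorem hb1_9 : BoxOK 671 750 393216 524288 :=
  boxOK_of (HTree.splitD 458752 (HTree.splitK 710 (HTree.leaf 273385 3 39341 32) (HTree.splitD 425984 (HTree.splitK 730 (HTree.leaf 261868 0 32572 32) (HTree.leaf 250378 0 25140 16)) (HTree.splitK 730 (HTree.leaf 259816 0 36209 32) (HTree.leaf 247867 0 28766 16)))) (HTree.splitK 710 (HTree.leaf 272644 2 47207 32) (HTree.splitD 491520 (HTree.splitK 730 (HTree.leaf 258488 0 40133 32) (HTree.leaf 245995 0 32615 16)) (HTree.leaf 244822 4 36812 4)))) (by decide +kernel)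

theorem hb1_11 : BoxOK 750 830 393216 458752 :=
  boxOK_of (HTree.splitK 790 (HTree.splitD 425984 (HTree.splitK 770 (HTree.leaf 240328 0 17312 8) (HTree.leaf 231467 1 9031 4)) (HTree.splitK 770 (HTree.leaf 237352 0 20845 8) (HTree.leaf 228171 3 12506 2))) (HTree.splitD 425984 (HTree.splitK 810 (HTree.splitD 409600 (HTree.leaf 225660 0 328 4) (HTree.leaf 223703 0 2013 2)) (HTree.leaf 207425 1 0 2)) (HTree.splitK 810 (HTree.splitD 442368 (HTree.leaf 221848 0 3734 1) (HTree.splitK 800 (HTree.leaf 223980 0 10017 8) (HTree.leaf 220088 0 5497 4))) (HTree.splitK 820 (HTree.leaf 216473 2 0 2) (HTree.leaf 208294 3 0 4))))) (by decide +kernel)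

theorem hb1_13 : BoxOK 750 790 458752 524288 :=
  boxOK_of (HTree.splitD 491520 (HTree.splitK 770 (HTree.leaf 234996 0 24639 8) (HTree.leaf 225377 0 16187 2)) (HTree.splitK 770 (HTree.leaf 233279 0 28737 16) (HTree.leaf 223159 3 20167 4))) (by decide +kernel)

theorem hb1_15 : BoxOK 790 830 458752 491520 :=
  boxOK_of (HTree.splitK 810 (HTree.splitD 475136 (HTree.splitK 800 (HTree.leaf 222444 0 11875 8) (HTree.leaf 218457 0 7330 4)) (HTree.splitK 800 (HTree.leaf 221037 1 13786 8) (HTree.leaf 216964 0 9224 4))) (HTree.splitK 820 (HTree.splitD 475136 (HTree.leaf 214756 1 2660 2) (HTree.leaf 213152 0 4522 2)) (HTree.splitD 475136 (HTree.leaf 209787 0 0 4) (HTree.splitK 825 (HTree.leaf 210641 0 2120 2) (HTree.leaf 208614 0 0 2))))) (by decide +kernel)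

theorem hb1_16 : BoxOK 790 830 491520 524288 :=
  boxOK_of (HTree.splitK 810 (HTree.splitD 507904 (HTree.splitK 800 (HTree.leaf 219736 0 15779 8) (HTree.leaf 215593 3 11176 4)) (HTree.splitK 800 (HTree.leaf 218579 0 17864 8) (HTree.leaf 214325 0 13218 4))) (HTree.splitK 820 (HTree.splitD 507904 (HTree.leaf 211702 0 6451 2) (HTree.leaf 210347 0 8444 2)) (HTree.splitD 507904 (HTree.splitK 825 (HTree.leaf 209616 0 4019 2) (HTree.leaf 207734 0 1580 1)) (HTree.splitK 825 (HTree.leaf 208449 1 6007 2) (HTree.leaf 206630 0 3545 1))))) (by decide +kernel)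

theorem hb1_14 : BoxOK 790 830 458752 524288 := BoxOK.splitD hb1_15 hb1_16

theorem hb1_12 : BoxOK 750 830 458752 524288 := BoxOK.splitK hb1_13 hb1_14

theorem hb1_10 : BoxOK 750 830 393216 524288 := BoxOK.splitD hb1_11 hb1_12

theorem hb1_8 : BoxOK 671 830 393216 524288 := BoxOK.splitK hb1_9 hb1_10

theorem hb1_6 : BoxOK 671 830 262144 524288 := BoxOK.splitD hb1_7 hb1_8

theorem hb1_4 : BoxOK 512 830 262144 524288 := BoxOK.splitK hb1_5 hb1_6

theorem hb1_2 : BoxOK 512 830 0 524288 := BoxOK.splitD hb1_3 hb1_4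

theorem hb1_19 : BoxOK 512 671 524288 786432 :=
  boxOK_of HTree.skip (by decide +kernel)

theorem hb1_22 : BoxOK 671 750 524288 655360 :=
  boxOK_of (HTree.splitD 589824 (HTree.splitK 710 HTree.skip (HTree.leaf 244331 0 41463 16)) HTree.skip) (by decide +kernel)

theorem hb1_25 : BoxOK 750 790 524288 589824 :=
  boxOK_of (HTree.splitD 557056 (HTree.splitK 770 (HTree.leaf 232202 0 33239 16) (HTree.leaf 221554 0 24528 8)) (HTree.splitK 770 (HTree.leaf 231813 3 38298 32) (HTree.leaf 220563 0 29371 16))) (by decide +kernel)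

theorem hb1_27 : BoxOK 790 830 524288 557056 :=
  boxOK_of (HTree.splitK 810 (HTree.splitD 540672 (HTree.leaf 213204 0 15359 1) (HTree.leaf 212229 2 17614 2)) (HTree.splitK 820 (HTree.leaf 208028 0 10480 1) (HTree.splitD 540672 (HTree.splitK 825 (HTree.leaf 207174 0 8086 2) (HTree.leaf 205319 0 5579 2)) (HTree.splitK 825 (HTree.leaf 206044 0 10252 4) (HTree.leaf 204119 0 7720 2))))) (by decide +kernel)

theorem hb1_28 : BoxOK 790 830 557056 589824 :=
  boxOK_of (HTree.splitK 810 (HTree.leaf 210720 1 19929 2) (HTree.splitK 820 (HTree.leaf 206268 0 14999 4) (HTree.splitD 573440 (HTree.leaf 203058 1 9979 1) (HTree.leaf 202126 2 12371 2)))) (by decide +kernel)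

theorem hb1_26 : BoxOK 790 830 524288 589824 := BoxOK.splitD hb1_27 hb1_28

theorem hb1_24 : BoxOK 750 830 524288 589824 := BoxOK.splitK hb1_25 hb1_26

theorem hb1_29 : BoxOK 750 830 589824 655360 :=
  boxOK_of (HTree.splitK 790 (HTree.leaf 220217 0 34888 1) (HTree.splitD 622592 (HTree.splitK 810 (HTree.leaf 209797 2 25149 8) (HTree.splitK 820 (HTree.leaf 205085 1 20076 8) (HTree.leaf 200686 0 14865 4))) (HTree.splitK 810 (HTree.leaf 209478 0 31184 16) (HTree.leaf 199806 0 20499 4)))) (by decide +kernel)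

theorem hb1_23 : BoxOK 750 830 524288 655360 := BoxOK.splitD hb1_24 hb1_29

theorem hb1_21 : BoxOK 671 830 524288 655360 := BoxOK.splitK hb1_22 hb1_23

theorem hb1_30 : BoxOK 671 830 655360 786432 :=
  boxOK_of (HTree.splitK 750 HTree.skip (HTree.splitD 720896 (HTree.splitK 790 HTree.skip (HTree.splitD 688128 (HTree.splitK 810 (HTree.leaf 209478 0 38258 32) (HTree.leaf 199496 0 27114 16)) (HTree.leaf 199496 0 35016 4))) HTree.skip)) (by decide +kernel)

theorem hb1_20 : BoxOK 671 830 524288 786432 := BoxOK.splitD hb1_21 hb1_30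

theorem hb1_18 : BoxOK 512 830 524288 786432 := BoxOK.splitK hb1_19 hb1_20

theorem hb1_31 : BoxOK 512 830 786432 1048576 :=
  boxOK_of HTree.skip (by decide +kernel)

theorem hb1_17 : BoxOK 512 830 524288 1048576 := BoxOK.splitD hb1_18 hb1_31

theorem hb1_1 : BoxOK 512 830 0 1048576 := BoxOK.splitD hb1_2 hb1_17

/-- The box of this module. -/
theorem humpBox1 : BoxOK 512 830 0 1048576 := hb1_1

end Vale.Agent.Lib.P232.Hump
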