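import Vale.Agent.Lib.P232.CertHump5

/-! Certificate data for the hump: `M` between `(830/1024)²` and `(858/1024)²`. -/

namespace Vale.Agent.Lib.P232.Hump

theorem hb2_3 : BoxOK 830 858 0 262144 :=
  boxOK_of (HTree.splitD 131072 (HTree.leaf 180318 0 0 16) (HTree.splitD 196608 (HTree.leaf 180318 0 0 8) (HTree.splitD 229376 (HTree.leaf 180318 0 0 2) (HTree.splitK 844 (HTree.leaf 193370 4 0 16) (HTree.leaf 180318 0 0 16))))) (by decide +kernel)

theorem hb2_5 : BoxOK 830 858 262144 393216 :=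
  boxOK_of (HTree.splitD 327680 (HTree.splitD 294912 (HTree.splitK 844 (HTree.leaf 193370 4 0 16) (HTree.leaf 180318 0 0 16)) (HTree.splitK 844 (HTree.leaf 193370 4 0 16) (HTree.leaf 180318 0 0 8))) (HTree.splitD 360448 (HTree.splitK 844 (HTree.leaf 193370 4 0 8) (HTree.leaf 180318 0 0 4)) (HTree.splitK 844 (HTree.leaf 193370 4 0 8) (HTree.leaf 180318 0 0 2)))) (by decide +kernel)

theorem hb2_7 : BoxOK 830 858 393216 458752 :=
  boxOK_of (HTree.splitD 425984 (HTree.splitK 844 (HTree.leaf 193690 0 0 4) (HTree.splitD 409600 (HTree.splitK 851 (HTree.leaf 187090 0 0 8) (HTree.leaf 180318 0 0 4)) (HTree.splitK 851 (HTree.leaf 187175 4 0 8) (HTree.leaf 180628 0 0 4)))) (HTree.splitK 844 (HTree.splitD 442368 (HTree.leaf 194165 0 0 2) (HTree.leaf 194629 5 0 1)) (HTree.splitD 442368 (HTree.splitK 851 (HTree.leaf 187366 0 0 4) (HTree.leaf 180740 0 0 4)) (HTree.splitK 851 (HTree.leaf 187719 0 0 4) (HTree.leaf 180990 4 0 4))))) (by decide +kernel)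

theorem hb2_9 : BoxOK 830 858 458752 491520 :=
  boxOK_of (HTree.splitK 844 (HTree.splitD 475136 (HTree.splitK 837 (HTree.leaf 202419 0 0 4) (HTree.leaf 195226 0 0 4)) (HTree.splitK 837 (HTree.leaf 203309 0 0 4) (HTree.leaf 195993 0 0 4))) (HTree.splitD 475136 (HTree.splitK 851 (HTree.leaf 188203 0 0 4) (HTree.leaf 181369 2 0 2)) (HTree.splitK 851 (HTree.leaf 188859 0 0 4) (HTree.leaf 181896 0 0 2)))) (by decide +kernel)

theorem hb2_11 : BoxOK 830 844 491520 524288 :=
  boxOK_of (HTree.splitD 507904 (HTree.splitK 837 (HTree.leaf 204413 0 0 1) (HTree.leaf 196959 0 0 2)) (HTree.splitK 837 (HTree.splitD 516096 (HTree.splitK 833 (HTree.leaf 204914 0 2031 2) (HTree.leaf 203661 0 20 1)) (HTree.splitK 833 (HTree.leaf 204343 0 3044 2) (HTree.leaf 203085 0 1014 1))) (HTree.leaf 198116 0 0 1))) (by decide +kernel)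

theorem hb2_12 : BoxOK 844 858 491520 524288 :=
  boxOK_of (HTree.splitD 507904 (HTree.splitK 851 (HTree.leaf 189686 0 0 2) (HTree.leaf 182595 0 0 2)) (HTree.splitK 851 (HTree.leaf 190704 0 0 2) (HTree.leaf 183475 0 0 2))) (by decide +kernel)

theorem hb2_10 : BoxOK 830 858 491520 524288 := BoxOK.splitK hb2_11 hb2_12

theorem hb2_8 : BoxOK 830 858 458752 524288 := BoxOK.splitD hb2_9 hb2_10

theorem hb2_6 : BoxOK 830 858 393216 524288 := BoxOK.splitD hb2_7 hb2_8

theorem hb2_4 : BoxOK 830 858 262144 524288 := BoxOK.splitD hb2_5 hb2_6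

theorem hb2_2 : BoxOK 830 858 0 524288 := BoxOK.splitD hb2_3 hb2_4

theorem hb2_20 : BoxOK 830 837 524288 540672 :=
  boxOK_of (HTree.splitD 532480 (HTree.splitK 833 (HTree.leaf 203800 0 4056 2) (HTree.leaf 202525 0 2034 1)) (HTree.splitK 833 (HTree.leaf 203282 0 5112 2) (HTree.leaf 202014 0 3063 1))) (by decide +kernel)

theorem hb2_21 : BoxOK 837 844 524288 540672 :=
  boxOK_of (HTree.splitD 532480 (HTree.splitK 840 (HTree.leaf 200574 0 492 1) (HTree.leaf 199124 0 0 1)) (HTree.splitK 840 (HTree.leaf 200056 0 1511 1) (HTree.splitD 536576 (HTree.leaf 198841 0 0 1) (HTree.splitK 842 (HTree.leaf 198590 0 991 1) (HTree.leaf 197598 0 0 1))))) (by decide +kernel)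

theorem hb2_19 : BoxOK 830 844 524288 540672 := BoxOK.splitK hb2_20 hb2_21

theorem hb2_23 : BoxOK 830 837 540672 557056 :=
  boxOK_of (HTree.splitD 548864 (HTree.splitK 833 (HTree.leaf 202791 0 6189 2) (HTree.leaf 201523 0 4139 1)) (HTree.leaf 201549 0 5239 1)) (by decide +kernel)

theorem hb2_25 : BoxOK 837 844 540672 548864 :=
  boxOK_of (HTree.splitK 840 (HTree.leaf 199566 0 2559 1) (HTree.splitD 544768 (HTree.splitK 842 (HTree.leaf 198340 0 1512 1) (HTree.leaf 197338 0 468 1)) (HTree.splitK 842 (HTree.leaf 197881 0 2043 2) (HTree.leaf 197097 0 993 1)))) (by decide +kernel)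

theorem hb2_26 : BoxOK 837 844 548864 557056 :=
  boxOK_of (HTree.splitK 840 (HTree.leaf 199091 0 3651 1) (HTree.splitD 552960 (HTree.splitK 842 (HTree.leaf 197641 0 2587 2) (HTree.leaf 196863 0 1530 1)) (HTree.splitK 842 (HTree.leaf 197417 0 3135 2) (HTree.leaf 196623 0 2078 1)))) (by decide +kernel)

theorem hb2_24 : BoxOK 837 844 540672 557056 := BoxOK.splitD hb2_25 hb2_26

theorem hb2_22 : BoxOK 830 844 540672 557056 := BoxOK.splitK hb2_23 hb2_24

theorem hb2_18 : BoxOK 830 844 524288 557056 := BoxOK.splitD hb2_19 hb2_22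

theorem hb2_28 : BoxOK 844 858 524288 540672 :=
  boxOK_of (HTree.splitK 851 (HTree.leaf 191947 4 0 1) (HTree.leaf 184562 0 0 1)) (by decide +kernel)

theorem hb2_29 : BoxOK 844 858 540672 557056 :=
  boxOK_of (HTree.splitK 851 (HTree.splitD 548864 (HTree.splitK 847 (HTree.leaf 196079 0 0 1) (HTree.leaf 193397 0 0 2)) (HTree.splitK 847 (HTree.splitD 552960 (HTree.splitK 845 (HTree.leaf 195647 0 996 2) (HTree.leaf 195338 0 0 1)) (HTree.splitK 845 (HTree.leaf 195423 0 1539 2) (HTree.leaf 195103 0 477 1))) (HTree.leaf 194112 0 0 1))) (HTree.leaf 185864 3 0 1)) (by decide +kernel)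

theorem hb2_27 : BoxOK 844 858 524288 557056 := BoxOK.splitD hb2_28 hb2_29

theorem hb2_17 : BoxOK 830 858 524288 557056 := BoxOK.splitK hb2_18 hb2_27

theorem hb2_32 : BoxOK 830 844 557056 573440 :=
  boxOK_of (HTree.splitK 837 (HTree.splitD 565248 (HTree.leaf 200953 0 6360 1) (HTree.leaf 200419 0 7522 2)) (HTree.splitD 565248 (HTree.splitK 840 (HTree.leaf 198452 0 4741 2) (HTree.splitD 561152 (HTree.leaf 197374 0 2639 1) (HTree.leaf 197156 0 3190 1))) (HTree.splitK 840 (HTree.leaf 198046 0 5888 2) (HTree.leaf 196735 0 3751 1)))) (by decide +kernel)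

theorem hb2_33 : BoxOK 830 844 573440 589824 :=
  boxOK_of (HTree.splitK 837 (HTree.leaf 199401 0 8677 2) (HTree.splitD 581632 (HTree.splitK 840 (HTree.leaf 197667 0 7058 2) (HTree.leaf 196346 0 4920 1)) (HTree.leaf 196804 0 6131 1))) (by decide +kernel)

theorem hb2_31 : BoxOK 830 844 557056 589824 := BoxOK.splitD hb2_32 hb2_33

theorem hb2_37 : BoxOK 844 851 557056 565248 :=
  boxOK_of (HTree.splitK 847 (HTree.splitD 561152 (HTree.splitK 845 (HTree.leaf 195199 0 2090 2) (HTree.leaf 194879 0 1025 1)) (HTree.leaf 195156 0 1582 1)) (HTree.splitD 561152 (HTree.leaf 193861 0 0 1) (HTree.splitK 849 (HTree.leaf 193647 0 501 1) (HTree.leaf 192645 0 0 1)))) (by decide +kernel)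

theorem hb2_38 : BoxOK 844 851 565248 573440 :=
  boxOK_of (HTree.splitK 847 (HTree.splitD 569344 (HTree.leaf 194949 0 2131 1) (HTree.leaf 194741 0 2694 1)) (HTree.splitD 569344 (HTree.splitK 849 (HTree.leaf 193429 0 1054 1) (HTree.leaf 192405 0 0 1)) (HTree.splitK 849 (HTree.leaf 193232 0 1606 1) (HTree.leaf 192197 0 526 1)))) (by decide +kernel)

theorem hb2_36 : BoxOK 844 851 557056 573440 := BoxOK.splitD hb2_37 hb2_38

theorem hb2_39 : BoxOK 851 858 557056 573440 :=
  boxOK_of (HTree.splitD 565248 (HTree.leaf 187399 2 0 1) (HTree.leaf 188263 0 0 1)) (by decide +kernel)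

theorem hb2_35 : BoxOK 844 858 557056 573440 := BoxOK.splitK hb2_36 hb2_39

theorem hb2_42 : BoxOK 844 851 573440 581632 :=
  boxOK_of (HTree.splitK 847 (HTree.leaf 194336 0 3267 1) (HTree.splitD 577536 (HTree.splitK 849 (HTree.leaf 193024 0 2172 1) (HTree.leaf 192000 0 1082 1)) (HTree.splitK 849 (HTree.leaf 192629 0 2748 2) (HTree.leaf 191808 0 1652 1)))) (by decide +kernel)

theorem hb2_43 : BoxOK 844 851 581632 589824 :=
  boxOK_of (HTree.splitK 847 (HTree.leaf 193749 0 4448 2) (HTree.splitD 585728 (HTree.leaf 192603 0 2247 1) (HTree.leaf 192438 0 2849 1))) (by decide +kernel)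

theorem hb2_41 : BoxOK 844 851 573440 589824 := BoxOK.splitD hb2_42 hb2_43

theorem hb2_44 : BoxOK 851 858 573440 589824 :=
  boxOK_of (HTree.splitD 581632 (HTree.splitK 854 (HTree.splitD 577536 (HTree.leaf 190955 0 0 1) (HTree.splitK 852 (HTree.leaf 190576 0 1099 2) (HTree.leaf 190246 0 6 1))) (HTree.leaf 189014 0 0 2)) (HTree.splitK 854 (HTree.splitD 585728 (HTree.leaf 190550 0 577 1) (HTree.leaf 190385 0 1162 1)) (HTree.leaf 188833 0 0 1))) (by decide +kernel)

theorem hb2_40 : BoxOK 844 858 573440 589824 := BoxOK.splitK hb2_41 hb2_44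

theorem hb2_34 : BoxOK 844 858 557056 589824 := BoxOK.splitD hb2_35 hb2_40

theorem hb2_30 : BoxOK 830 858 557056 589824 := BoxOK.splitK hb2_31 hb2_34

theorem hb2_16 : BoxOK 830 858 524288 589824 := BoxOK.splitD hb2_17 hb2_30

theorem hb2_47 : BoxOK 830 844 589824 622592 :=
  boxOK_of (HTree.splitD 606208 (HTree.splitK 837 (HTree.leaf 198521 0 11160 4) (HTree.leaf 195855 0 7349 1)) (HTree.splitK 837 (HTree.leaf 197779 0 13814 4) (HTree.leaf 195034 0 9932 4))) (by decide +kernel)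

theorem hb2_50 : BoxOK 844 851 589824 606208 :=
  boxOK_of (HTree.splitD 598016 (HTree.splitK 847 (HTree.leaf 193413 0 5649 2) (HTree.leaf 192075 0 3445 1)) (HTree.leaf 193258 0 4708 1)) (by decide +kernel)

theorem hb2_51 : BoxOK 851 858 589824 606208 :=
  boxOK_of (HTree.splitD 598016 (HTree.splitK 854 (HTree.leaf 190006 0 1759 1) (HTree.splitD 593920 (HTree.leaf 188625 0 0 1) (HTree.splitK 856 (HTree.leaf 188273 0 1232 2) (HTree.leaf 187212 0 99 2)))) (HTree.splitK 854 (HTree.leaf 189489 0 2962 2) (HTree.splitD 602112 (HTree.leaf 188273 0 710 1) (HTree.leaf 188124 0 1316 1)))) (by decide +kernel)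

theorem hb2_49 : BoxOK 844 858 589824 606208 := BoxOK.splitK hb2_50 hb2_51

theorem hb2_52 : BoxOK 844 858 606208 622592 :=
  boxOK_of (HTree.splitK 851 (HTree.leaf 192405 0 5992 1) (HTree.splitD 614400 (HTree.splitK 854 (HTree.leaf 189212 0 4217 2) (HTree.leaf 187815 0 1930 1)) (HTree.leaf 189073 0 3237 1))) (by decide +kernel)

theorem hb2_48 : BoxOK 844 858 589824 622592 := BoxOK.splitD hb2_49 hb2_52

theorem hb2_46 : BoxOK 830 858 589824 622592 := BoxOK.splitK hb2_47 hb2_48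

theorem hb2_53 : BoxOK 830 858 622592 655360 :=
  boxOK_of (HTree.splitK 844 (HTree.leaf 193776 0 12668 2) (HTree.splitD 638976 (HTree.splitK 851 (HTree.leaf 191627 0 8684 4) (HTree.leaf 188385 0 4563 2)) (HTree.leaf 188316 0 7408 1))) (by decide +kernel)

theorem hb2_45 : BoxOK 830 858 589824 655360 := BoxOK.splitD hb2_46 hb2_53

theorem hb2_15 : BoxOK 830 858 524288 655360 := BoxOK.splitD hb2_16 hb2_45

theorem hb2_54 : BoxOK 830 858 655360 786432 :=
  boxOK_of (HTree.splitD 720896 (HTree.splitD 688128 (HTree.splitK 844 (HTree.leaf 193077 0 18922 8) (HTree.leaf 187271 0 10439 4)) (HTree.leaf 186753 2 17422 1)) (HTree.leaf 186701 4 25952 16)) (by decide +kernel)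

theorem hb2_14 : BoxOK 830 858 524288 786432 := BoxOK.splitD hb2_15 hb2_54

theorem hb2_55 : BoxOK 830 858 786432 1048576 :=
  boxOK_of HTree.skip (by decide +kernel)

theorem hb2_13 : BoxOK 830 858 524288 1048576 := BoxOK.splitD hb2_14 hb2_55

theorem hb2_1 : BoxOK 830 858 0 1048576 := BoxOK.splitD hb2_2 hb2_13

/-- The box of this module. -/
theorem humpBox2 : BoxOK 830 858 0 1048576 := hb2_1

end Vale.Agent.Lib.P232.Hump
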