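import Vale.Agent.Lib.P232.CertHump5

/-! Certificate data for the hump: `M` between `(858/1024)²` and `(885/1024)²`. -/

namespace Vale.Agent.Lib.P232.Hump

theorem hb3_3 : BoxOK 858 885 0 262144 :=
  boxOK_of (HTree.splitD 131072 (HTree.splitD 65536 (HTree.splitD 32768 (HTree.splitK 871 (HTree.leaf 168705 0 0 16) (HTree.leaf 156421 0 0 16)) (HTree.splitK 871 (HTree.leaf 168705 0 0 16) (HTree.leaf 156421 0 0 16))) (HTree.splitD 98304 (HTree.splitK 871 (HTree.leaf 168705 0 0 16) (HTree.leaf 156421 0 0 16)) (HTree.splitK 871 (HTree.leaf 168705 0 0 16) (HTree.leaf 156421 0 0 16)))) (HTree.splitD 196608 (HTree.splitD 163840 (HTree.splitK 871 (HTree.leaf 168705 0 0 16) (HTree.leaf 156421 0 0 8)) (HTree.splitK 871 (HTree.leaf 168705 0 0 16) (HTree.leaf 156421 0 0 8))) (HTree.splitD 229376 (HTree.splitK 871 (HTree.leaf 168705 0 0 16) (HTree.leaf 156421 0 0 8)) (HTree.splitK 871 (HTree.leaf 168705 0 0 8) (HTree.leaf 156421 0 0 4))))) (by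 decide +kernel)

theorem hb3_5 : BoxOK 858 885 262144 393216 :=
  boxOK_of (HTree.splitD 327680 (HTree.splitD 294912 (HTree.splitK 871 (HTree.leaf 168705 0 0 8) (HTree.leaf 156421 0 0 2)) (HTree.splitK 871 (HTree.leaf 168705 0 0 4) (HTree.splitD 311296 (HTree.leaf 156421 0 0 2) (HTree.splitK 878 (HTree.leaf 162313 0 0 8) (HTree.leaf 156421 0 0 4))))) (HTree.splitD 360448 (HTree.splitK 871 (HTree.leaf 168705 0 0 2) (HTree.splitD 344064 (HTree.splitK 878 (HTree.leaf 162313 0 0 4) (HTree.leaf 156421 0 0 4)) (HTree.splitK 878 (HTree.leaf 162313 0 0 4) (HTree.leaf 156421 0 0 4)))) (HTree.splitK 871 (HTree.splitD 376832 (HTree.leaf 168705 0 0 1) (HTree.splitK 864 (HTree.leaf 174960 3 0 8) (HTree.leaf 168705 0 0 4))) (HTree.splitD 376832 (HTree.splitK 878 (HTree.leaf 162313 0 0 4) (HTree.leaf 156421 0 0 4)) (HTree.splitK 878 (HTree.leaf 162313 0 0 2) (HTree.leaf 156421 0 0 2)))))) (by decide +kernel)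

theorem hb3_8 : BoxOK 858 885 393216 425984 :=
  boxOK_of (HTree.splitK 871 (HTree.splitD 409600 (HTree.splitK 864 (HTree.leaf 174960 3 0 4) (HTree.leaf 168705 0 0 4)) (HTree.splitK 864 (HTree.leaf 174960 3 0 4) (HTree.leaf 168705 0 0 2))) (HTree.splitD 409600 (HTree.splitK 878 (HTree.leaf 162313 0 0 2) (HTree.leaf 156421 0 0 2)) (HTree.splitK 878 (HTree.leaf 162313 0 0 1) (HTree.leaf 156421 0 0 1)))) (by decide +kernel)

theorem hb3_10 : BoxOK 858 871 425984 458752 :=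
  boxOK_of (HTree.splitD 442368 (HTree.splitK 864 (HTree.leaf 175184 0 0 4) (HTree.leaf 168705 0 0 1)) (HTree.splitK 864 (HTree.leaf 175339 0 0 2) (HTree.leaf 168903 0 0 1))) (by decide +kernel)

theorem hb3_12 : BoxOK 871 885 425984 442368 :=
  boxOK_of (HTree.splitK 878 (HTree.splitD 434176 (HTree.leaf 162313 0 0 1) (HTree.splitK 874 (HTree.leaf 166162 0 0 4) (HTree.leaf 162313 0 0 2))) (HTree.splitD 434176 (HTree.splitK 881 (HTree.leaf 159690 2 0 2) (HTree.leaf 156421 0 0 2)) (HTree.splitK 881 (HTree.leaf 159690 2 0 2) (HTree.leaf 156421 0 0 2)))) (by decide +kernel)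

theorem hb3_13 : BoxOK 871 885 442368 458752 :=
  boxOK_of (HTree.splitK 878 (HTree.splitD 450560 (HTree.splitK 874 (HTree.leaf 166194 1 0 2) (HTree.leaf 162622 0 0 2)) (HTree.splitK 874 (HTree.leaf 166237 0 0 2) (HTree.leaf 162649 2 0 2))) (HTree.splitD 450560 (HTree.splitK 881 (HTree.leaf 159690 2 0 2) (HTree.leaf 156421 0 0 2)) (HTree.splitK 881 (HTree.leaf 159983 3 0 2) (HTree.leaf 156421 0 0 1)))) (by decide +kernel)

theorem hb3_11 : BoxOK 871 885 425984 458752 := BoxOK.splitD hb3_12 hb3_13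

theorem hb3_9 : BoxOK 858 885 425984 458752 := BoxOK.splitK hb3_10 hb3_11

theorem hb3_7 : BoxOK 858 885 393216 458752 := BoxOK.splitD hb3_8 hb3_9

theorem hb3_16 : BoxOK 858 871 458752 491520 :=
  boxOK_of (HTree.splitD 475136 (HTree.splitK 864 (HTree.leaf 175632 1 0 2) (HTree.splitD 466944 (HTree.leaf 169084 0 0 1) (HTree.leaf 169223 0 0 1))) (HTree.splitK 864 (HTree.leaf 176064 0 0 2) (HTree.splitD 483328 (HTree.leaf 169404 0 0 1) (HTree.splitK 867 (HTree.leaf 173434 0 0 2) (HTree.leaf 169628 2 0 2))))) (by decide +kernel)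

theorem hb3_18 : BoxOK 871 885 458752 475136 :=
  boxOK_of (HTree.splitK 878 (HTree.splitD 466944 (HTree.splitK 874 (HTree.leaf 166333 0 0 2) (HTree.leaf 162702 0 0 2)) (HTree.splitK 874 (HTree.leaf 166445 0 0 2) (HTree.leaf 162787 0 0 2))) (HTree.splitD 466944 (HTree.splitK 881 (HTree.leaf 160009 0 0 2) (HTree.leaf 156464 0 0 1)) (HTree.splitK 881 (HTree.leaf 160078 1 0 2) (HTree.leaf 156506 3 0 1)))) (by decide +kernel)

theorem hb3_19 : BoxOK 871 885 475136 491520 :=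
  boxOK_of (HTree.splitK 878 (HTree.splitD 483328 (HTree.splitK 874 (HTree.leaf 166600 0 0 2) (HTree.leaf 162909 0 0 2)) (HTree.splitK 874 (HTree.leaf 166791 0 0 2) (HTree.leaf 163064 0 0 2))) (HTree.splitD 483328 (HTree.splitK 881 (HTree.leaf 160174 0 0 2) (HTree.leaf 156559 0 0 1)) (HTree.splitK 881 (HTree.leaf 160302 0 0 2) (HTree.leaf 156661 0 0 1)))) (by decide +kernel)

theorem hb3_17 : BoxOK 871 885 458752 491520 := BoxOK.splitD hb3_18 hb3_19

theorem hb3_15 : BoxOK 858 885 458752 491520 := BoxOK.splitK hb3_16 hb3_17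

theorem hb3_21 : BoxOK 858 871 491520 524288 :=
  boxOK_of (HTree.splitD 507904 (HTree.splitK 864 (HTree.leaf 176650 0 0 2) (HTree.splitD 499712 (HTree.splitK 867 (HTree.leaf 173728 0 0 2) (HTree.leaf 169878 0 0 2)) (HTree.leaf 170172 0 0 1))) (HTree.splitK 864 (HTree.leaf 177418 0 0 2) (HTree.splitD 516096 (HTree.leaf 170508 0 0 1) (HTree.leaf 170897 0 0 1)))) (by decide +kernel)

theorem hb3_23 : BoxOK 871 885 491520 507904 :=
  boxOK_of (HTree.splitK 878 (HTree.splitD 499712 (HTree.splitK 874 (HTree.leaf 167015 0 0 2) (HTree.leaf 163262 0 0 2)) (HTree.splitK 874 (HTree.leaf 167298 3 0 2) (HTree.leaf 163496 0 0 2))) (HTree.splitD 499712 (HTree.splitK 881 (HTree.leaf 160467 0 0 2) (HTree.leaf 156800 0 0 1)) (HTree.splitK 881 (HTree.leaf 160681 0 0 2) (HTree.leaf 156965 0 0 1)))) (by decide +kernel)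

theorem hb3_24 : BoxOK 871 885 507904 524288 :=
  boxOK_of (HTree.splitK 878 (HTree.splitD 516096 (HTree.splitK 874 (HTree.leaf 167602 0 0 2) (HTree.leaf 163763 0 0 2)) (HTree.splitK 874 (HTree.leaf 167954 0 0 2) (HTree.leaf 164082 0 0 2))) (HTree.splitD 516096 (HTree.splitK 881 (HTree.leaf 160932 3 0 2) (HTree.leaf 157189 4 0 1)) (HTree.splitK 881 (HTree.leaf 161209 0 0 2) (HTree.leaf 157429 0 0 2)))) (by decide +kernel)

theorem hb3_22 : BoxOK 871 885 491520 524288 := BoxOK.splitD hb3_23 hb3_24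

theorem hb3_20 : BoxOK 858 885 491520 524288 := BoxOK.splitK hb3_21 hb3_22

theorem hb3_14 : BoxOK 858 885 458752 524288 := BoxOK.splitD hb3_15 hb3_20

theorem hb3_6 : BoxOK 858 885 393216 524288 := BoxOK.splitD hb3_7 hb3_14

theorem hb3_4 : BoxOK 858 885 262144 524288 := BoxOK.splitD hb3_5 hb3_6

theorem hb3_2 : BoxOK 858 885 0 524288 := BoxOK.splitD hb3_3 hb3_4

theorem hb3_30 : BoxOK 858 871 524288 557056 :=
  boxOK_of (HTree.splitD 540672 (HTree.splitK 864 (HTree.leaf 178377 0 0 2) (HTree.leaf 171318 0 0 1)) (HTree.splitK 864 (HTree.leaf 179540 0 0 2) (HTree.leaf 172337 1 0 1))) (by decide +kernel)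

theorem hb3_32 : BoxOK 871 885 524288 540672 :=
  boxOK_of (HTree.splitK 878 (HTree.splitD 532480 (HTree.splitK 874 (HTree.leaf 168359 2 0 2) (HTree.leaf 164435 0 0 2)) (HTree.leaf 164840 0 0 1)) (HTree.splitD 532480 (HTree.splitK 881 (HTree.leaf 161545 2 0 2) (HTree.leaf 157722 1 0 2)) (HTree.splitK 881 (HTree.leaf 161907 0 0 2) (HTree.leaf 158052 0 0 2)))) (by decide +kernel)

theorem hb3_33 : BoxOK 871 885 540672 557056 :=
  boxOK_of (HTree.splitK 878 (HTree.leaf 165298 0 0 1) (HTree.splitD 548864 (HTree.leaf 158431 0 0 1) (HTree.leaf 158852 0 0 1))) (by decide +kernel)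

theorem hb3_31 : BoxOK 871 885 524288 557056 := BoxOK.splitD hb3_32 hb3_33

theorem hb3_29 : BoxOK 858 885 524288 557056 := BoxOK.splitK hb3_30 hb3_31

theorem hb3_34 : BoxOK 858 885 557056 589824 :=
  boxOK_of (HTree.splitK 871 (HTree.splitD 573440 (HTree.splitK 864 (HTree.leaf 180931 0 0 2) (HTree.leaf 173563 2 0 2)) (HTree.splitK 864 (HTree.leaf 182568 0 0 2) (HTree.leaf 175013 0 0 2))) (HTree.splitD 573440 (HTree.splitK 878 (HTree.leaf 166359 0 0 2) (HTree.leaf 159327 0 0 2)) (HTree.splitK 878 (HTree.leaf 167644 0 0 2) (HTree.leaf 160441 0 0 2)))) (by decide +kernel)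

theorem hb3_28 : BoxOK 858 885 524288 589824 := BoxOK.splitD hb3_29 hb3_34

theorem hb3_36 : BoxOK 858 885 589824 622592 :=
  boxOK_of (HTree.splitK 871 (HTree.splitD 606208 (HTree.splitK 864 (HTree.leaf 184493 0 0 2) (HTree.leaf 176746 0 0 4)) (HTree.splitK 864 (HTree.splitD 614400 (HTree.leaf 185692 0 0 1) (HTree.splitK 861 (HTree.leaf 185218 0 1449 2) (HTree.leaf 183629 0 0 2))) (HTree.leaf 178756 0 0 4))) (HTree.splitD 606208 (HTree.splitK 878 (HTree.leaf 169180 0 0 4) (HTree.leaf 161795 0 0 4)) (HTree.splitK 878 (HTree.leaf 170982 0 0 4) (HTree.leaf 163400 0 0 4)))) (by decide +kernel)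

theorem hb3_37 : BoxOK 858 885 622592 655360 :=
  boxOK_of (HTree.splitK 871 (HTree.splitD 638976 (HTree.splitK 864 (HTree.leaf 184855 0 986 1) (HTree.leaf 181102 0 0 2)) (HTree.splitK 864 (HTree.leaf 183864 0 3697 4) (HTree.leaf 180990 0 0 2))) (HTree.splitD 638976 (HTree.leaf 165288 0 0 1) (HTree.leaf 167506 0 0 2))) (by decide +kernel)

theorem hb3_35 : BoxOK 858 885 589824 655360 := BoxOK.splitD hb3_36 hb3_37

theorem hb3_27 : BoxOK 858 885 524288 655360 := BoxOK.splitD hb3_28 hb3_35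

theorem hb3_38 : BoxOK 858 885 655360 786432 :=
  boxOK_of (HTree.splitD 720896 (HTree.splitD 688128 (HTree.splitK 871 (HTree.splitD 671744 (HTree.leaf 183000 0 2283 1) (HTree.leaf 182371 0 5403 4)) (HTree.leaf 170103 3 0 4)) (HTree.splitK 871 (HTree.leaf 181507 0 8800 8) (HTree.leaf 175711 0 0 4))) (HTree.leaf 175477 0 6511 2)) (by decide +kernel)

theorem hb3_26 : BoxOK 858 885 524288 786432 := BoxOK.splitD hb3_27 hb3_38

theorem hb3_39 : BoxOK 858 885 786432 1048576 :=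
  boxOK_of HTree.skip (by decide +kernel)

theorem hb3_25 : BoxOK 858 885 524288 1048576 := BoxOK.splitD hb3_26 hb3_39

theorem hb3_1 : BoxOK 858 885 0 1048576 := BoxOK.splitD hb3_2 hb3_25

/-- The box of this module. -/
theorem humpBox3 : BoxOK 858 885 0 1048576 := hb3_1

end Vale.Agent.Lib.P232.Hump
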