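import Vale.Agent.Lib.P232.CertHump5

/-! Certificate data for the hump: `M` between `(885/1024)²` and `(912/1024)²`. -/

namespace Vale.Agent.Lib.P232.Hump

theorem hb4_3 : BoxOK 885 912 0 262144 :=
  boxOK_of (HTree.splitD 131072 (HTree.splitD 65536 (HTree.splitD 32768 (HTree.splitK 898 (HTree.leaf 145144 2 0 8) (HTree.leaf 132998 0 0 8)) (HTree.splitK 898 (HTree.leaf 145144 2 0 8) (HTree.leaf 132998 0 0 8))) (HTree.splitD 98304 (HTree.splitK 898 (HTree.leaf 145144 2 0 8) (HTree.leaf 132998 0 0 8)) (HTree.splitK 898 (HTree.leaf 145144 2 0 8) (HTree.leaf 132998 0 0 8)))) (HTree.splitD 196608 (HTree.splitD 163840 (HTree.splitK 898 (HTree.leaf 145144 2 0 8) (HTree.leaf 132998 0 0 4)) (HTree.splitK 898 (HTree.leaf 145144 2 0 8) (HTree.leaf 132998 0 0 4))) (HTree.splitD 229376 (HTree.splitK 898 (HTree.leaf 145144 2 0 4) (HTree.leaf 132998 0 0 4)) (HTree.splitK 898 (HTree.leaf 145144 2 0 4) (HTree.leaf 132998 0 0 2))))) (by decide +kernel)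

theorem hb4_6 : BoxOK 885 912 262144 327680 :=
  boxOK_of (HTree.splitD 294912 (HTree.splitK 898 (HTree.leaf 145144 2 0 2) (HTree.splitD 278528 (HTree.leaf 132998 0 0 1) (HTree.splitK 905 (HTree.leaf 139124 0 0 4) (HTree.leaf 132998 0 0 4)))) (HTree.splitK 898 (HTree.splitD 311296 (HTree.leaf 145144 2 0 1) (HTree.splitK 891 (HTree.leaf 151020 0 0 4) (HTree.leaf 145144 2 0 4))) (HTree.splitD 311296 (HTree.splitK 905 (HTree.leaf 139124 0 0 4) (HTree.leaf 132998 0 0 4)) (HTree.splitK 905 (HTree.leaf 139124 0 0 4) (HTree.leaf 132998 0 0 4))))) (by decide +kernel)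

theorem hb4_7 : BoxOK 885 912 327680 393216 :=
  boxOK_of (HTree.splitD 360448 (HTree.splitK 898 (HTree.splitD 344064 (HTree.splitK 891 (HTree.leaf 151020 0 0 4) (HTree.leaf 145144 2 0 4)) (HTree.splitK 891 (HTree.leaf 151020 0 0 4) (HTree.leaf 145144 2 0 4))) (HTree.splitD 344064 (HTree.splitK 905 (HTree.leaf 139124 0 0 4) (HTree.leaf 132998 0 0 4)) (HTree.splitK 905 (HTree.leaf 139124 0 0 4) (HTree.leaf 132998 0 0 4)))) (HTree.splitK 898 (HTree.splitD 376832 (HTree.splitK 891 (HTree.leaf 151020 0 0 4) (HTree.leaf 145144 2 0 2)) (HTree.splitK 891 (HTree.leaf 151020 0 0 2) (HTree.leaf 145144 2 0 2))) (HTree.splitD 376832 (HTree.splitK 905 (HTree.leaf 139124 0 0 2) (HTree.leaf 132998 0 0 2)) (HTree.splitK 905 (HTree.leaf 139124 0 0 2) (HTree.leaf 132998 0 0 2))))) (by decide +kernel)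

theorem hb4_5 : BoxOK 885 912 262144 393216 := BoxOK.splitD hb4_6 hb4_7

theorem hb4_11 : BoxOK 885 898 393216 425984 :=
  boxOK_of (HTree.splitD 409600 (HTree.splitK 891 (HTree.leaf 151020 0 0 2) (HTree.leaf 145144 2 0 1)) (HTree.splitK 891 (HTree.leaf 151020 0 0 1) (HTree.splitD 417792 (HTree.leaf 145144 2 0 1) (HTree.splitK 894 (HTree.leaf 148519 0 0 2) (HTree.leaf 145144 2 0 2))))) (by decide +kernel)

theorem hb4_12 : BoxOK 898 912 393216 425984 :=
  boxOK_of (HTree.splitD 409600 (HTree.splitK 905 (HTree.leaf 139124 0 0 1) (HTree.leaf 132998 0 0 2)) (HTree.splitK 905 (HTree.leaf 139124 0 0 1) (HTree.leaf 132998 0 0 1))) (by decide +kernel)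

theorem hb4_10 : BoxOK 885 912 393216 425984 := BoxOK.splitK hb4_11 hb4_12

theorem hb4_15 : BoxOK 885 898 425984 442368 :=
  boxOK_of (HTree.splitK 891 (HTree.splitD 434176 (HTree.leaf 151020 0 0 1) (HTree.splitK 888 (HTree.leaf 153557 0 0 2) (HTree.leaf 151020 0 0 2))) (HTree.splitD 434176 (HTree.splitK 894 (HTree.leaf 148519 0 0 2) (HTree.leaf 145144 2 0 2)) (HTree.splitK 894 (HTree.leaf 148519 0 0 2) (HTree.leaf 145144 2 0 2)))) (by decide +kernel)

theorem hb4_16 : BoxOK 885 898 442368 458752 :=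
  boxOK_of (HTree.splitK 891 (HTree.splitD 450560 (HTree.splitK 888 (HTree.leaf 153557 0 0 2) (HTree.leaf 151020 0 0 2)) (HTree.splitK 888 (HTree.leaf 153557 0 0 2) (HTree.leaf 151020 0 0 2))) (HTree.splitD 450560 (HTree.splitK 894 (HTree.leaf 148519 0 0 2) (HTree.leaf 145144 2 0 1)) (HTree.splitK 894 (HTree.leaf 148519 0 0 2) (HTree.leaf 145144 2 0 1)))) (by decide +kernel)

theorem hb4_14 : BoxOK 885 898 425984 458752 := BoxOK.splitD hb4_15 hb4_16

theorem hb4_18 : BoxOK 898 912 425984 442368 :=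
  boxOK_of (HTree.splitK 905 (HTree.splitD 434176 (HTree.splitK 901 (HTree.leaf 142409 0 0 2) (HTree.leaf 139124 0 0 2)) (HTree.splitK 901 (HTree.leaf 142409 0 0 2) (HTree.leaf 139124 0 0 2))) (HTree.leaf 132998 0 0 1)) (by decide +kernel)

theorem hb4_19 : BoxOK 898 912 442368 458752 :=
  boxOK_of (HTree.splitK 905 (HTree.splitD 450560 (HTree.splitK 901 (HTree.leaf 142409 0 0 2) (HTree.leaf 139124 0 0 2)) (HTree.splitK 901 (HTree.leaf 142409 0 0 2) (HTree.leaf 139124 0 0 2))) (HTree.splitD 450560 (HTree.leaf 132998 0 0 1) (HTree.splitK 908 (HTree.leaf 136475 0 0 2) (HTree.leaf 132998 0 0 2)))) (by decide +kernel)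

theorem hb4_17 : BoxOK 898 912 425984 458752 := BoxOK.splitD hb4_18 hb4_19

theorem hb4_13 : BoxOK 885 912 425984 458752 := BoxOK.splitK hb4_14 hb4_17

theorem hb4_9 : BoxOK 885 912 393216 458752 := BoxOK.splitD hb4_10 hb4_13

theorem hb4_24 : BoxOK 885 891 458752 475136 :=
  boxOK_of (HTree.splitD 466944 (HTree.splitK 888 (HTree.leaf 153557 0 0 1) (HTree.leaf 151020 0 0 1)) (HTree.splitK 888 (HTree.leaf 153851 0 0 1) (HTree.leaf 151227 0 0 1))) (by decide +kernel)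

theorem hb4_25 : BoxOK 891 898 458752 475136 :=
  boxOK_of (HTree.splitD 466944 (HTree.splitK 894 (HTree.leaf 148519 0 0 1) (HTree.leaf 145144 2 0 1)) (HTree.splitK 894 (HTree.leaf 148519 0 0 1) (HTree.leaf 145144 2 0 1))) (by decide +kernel)

theorem hb4_23 : BoxOK 885 898 458752 475136 := BoxOK.splitK hb4_24 hb4_25

theorem hb4_27 : BoxOK 885 891 475136 491520 :=
  boxOK_of (HTree.splitD 483328 (HTree.splitK 888 (HTree.leaf 153893 0 0 1) (HTree.leaf 151244 0 0 1)) (HTree.splitK 888 (HTree.leaf 153963 0 0 1) (HTree.leaf 151297 0 0 1))) (by decide +kernel)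

theorem hb4_28 : BoxOK 891 898 475136 491520 :=
  boxOK_of (HTree.splitD 483328 (HTree.splitK 894 (HTree.leaf 148631 0 0 1) (HTree.leaf 145144 2 0 1)) (HTree.splitK 894 (HTree.leaf 148657 0 0 1) (HTree.leaf 145171 0 0 1))) (by decide +kernel)

theorem hb4_26 : BoxOK 885 898 475136 491520 := BoxOK.splitK hb4_27 hb4_28

theorem hb4_22 : BoxOK 885 898 458752 491520 := BoxOK.splitD hb4_23 hb4_26

theorem hb4_30 : BoxOK 898 912 458752 475136 :=
  boxOK_of (HTree.splitK 905 (HTree.splitD 466944 (HTree.splitK 901 (HTree.leaf 142409 0 0 2) (HTree.leaf 139124 0 0 2)) (HTree.splitK 901 (HTree.leaf 142409 0 0 1) (HTree.leaf 139124 0 0 1))) (HTree.splitD 466944 (HTree.splitK 908 (HTree.leaf 136475 0 0 2) (HTree.leaf 132998 0 0 2)) (HTree.splitK 908 (HTree.leaf 136475 0 0 2) (HTree.leaf 132998 0 0 2)))) (by decide +kernel)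

theorem hb4_31 : BoxOK 898 912 475136 491520 :=
  boxOK_of (HTree.splitK 905 (HTree.splitD 483328 (HTree.splitK 901 (HTree.leaf 142409 0 0 1) (HTree.leaf 139124 0 0 1)) (HTree.splitK 901 (HTree.leaf 142409 0 0 1) (HTree.leaf 139124 0 0 1))) (HTree.splitD 483328 (HTree.splitK 908 (HTree.leaf 136475 0 0 2) (HTree.leaf 132998 0 0 2)) (HTree.splitK 908 (HTree.leaf 136475 0 0 2) (HTree.leaf 132998 0 0 2)))) (by decide +kernel)

theorem hb4_29 : BoxOK 898 912 458752 491520 := BoxOK.splitD hb4_30 hb4_31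

theorem hb4_21 : BoxOK 885 912 458752 491520 := BoxOK.splitK hb4_22 hb4_29

theorem hb4_35 : BoxOK 885 891 491520 507904 :=
  boxOK_of (HTree.splitD 499712 (HTree.splitK 888 (HTree.leaf 154075 0 0 1) (HTree.leaf 151382 0 0 1)) (HTree.splitK 888 (HTree.leaf 154229 2 0 1) (HTree.leaf 151511 3 0 1))) (by decide +kernel)

theorem hb4_36 : BoxOK 891 898 491520 507904 :=
  boxOK_of (HTree.splitD 499712 (HTree.splitK 894 (HTree.leaf 148716 0 0 1) (HTree.leaf 145197 0 0 1)) (HTree.splitK 894 (HTree.leaf 148812 0 0 1) (HTree.leaf 145256 0 0 1))) (by decide +kernel)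

theorem hb4_34 : BoxOK 885 898 491520 507904 := BoxOK.splitK hb4_35 hb4_36

theorem hb4_37 : BoxOK 885 898 507904 524288 :=
  boxOK_of (HTree.splitK 891 (HTree.splitD 516096 (HTree.splitK 888 (HTree.leaf 154411 1 0 2) (HTree.leaf 151659 0 0 1)) (HTree.splitK 888 (HTree.leaf 154618 0 0 2) (HTree.leaf 151857 2 0 2))) (HTree.splitD 516096 (HTree.splitK 894 (HTree.leaf 148940 0 0 2) (HTree.leaf 145352 0 0 1)) (HTree.splitK 894 (HTree.leaf 149105 0 0 2) (HTree.leaf 145480 0 0 1)))) (by decide +kernel)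

theorem hb4_33 : BoxOK 885 898 491520 524288 := BoxOK.splitD hb4_34 hb4_37

theorem hb4_39 : BoxOK 898 912 491520 507904 :=
  boxOK_of (HTree.splitK 905 (HTree.splitD 499712 (HTree.splitK 901 (HTree.leaf 142590 0 0 1) (HTree.leaf 139124 0 0 1)) (HTree.splitK 901 (HTree.leaf 142627 0 0 2) (HTree.leaf 139167 0 0 1))) (HTree.splitD 499712 (HTree.splitK 908 (HTree.leaf 136475 0 0 2) (HTree.leaf 132998 0 0 2)) (HTree.splitK 908 (HTree.leaf 136475 0 0 2) (HTree.leaf 132998 0 0 2)))) (by decide +kernel)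

theorem hb4_40 : BoxOK 898 912 507904 524288 :=
  boxOK_of (HTree.splitK 905 (HTree.splitD 516096 (HTree.splitK 901 (HTree.leaf 142702 0 0 2) (HTree.leaf 139193 0 0 1)) (HTree.splitK 901 (HTree.leaf 142798 0 0 2) (HTree.leaf 139269 0 0 2))) (HTree.splitD 516096 (HTree.splitK 908 (HTree.leaf 136597 0 0 2) (HTree.leaf 132998 0 0 2)) (HTree.splitK 908 (HTree.leaf 136639 0 0 2) (HTree.leaf 133196 3 0 2)))) (by decide +kernel)

theorem hb4_38 : BoxOK 898 912 491520 524288 := BoxOK.splitD hb4_39 hb4_40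

theorem hb4_32 : BoxOK 885 912 491520 524288 := BoxOK.splitK hb4_33 hb4_38

theorem hb4_20 : BoxOK 885 912 458752 524288 := BoxOK.splitD hb4_21 hb4_32

theorem hb4_8 : BoxOK 885 912 393216 524288 := BoxOK.splitD hb4_9 hb4_20

theorem hb4_4 : BoxOK 885 912 262144 524288 := BoxOK.splitD hb4_5 hb4_8

theorem hb4_2 : BoxOK 885 912 0 524288 := BoxOK.splitD hb4_3 hb4_4

theorem hb4_47 : BoxOK 885 898 524288 540672 :=
  boxOK_of (HTree.splitK 891 (HTree.splitD 532480 (HTree.splitK 888 (HTree.leaf 154885 0 0 2) (HTree.leaf 152081 0 0 2)) (HTree.leaf 152358 0 0 1)) (HTree.splitD 532480 (HTree.splitK 894 (HTree.leaf 149303 0 0 2) (HTree.leaf 145645 0 0 2)) (HTree.splitK 894 (HTree.leaf 149553 0 0 2) (HTree.leaf 145853 0 0 2)))) (by decide +kernel)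

theorem hb4_48 : BoxOK 885 898 540672 557056 :=
  boxOK_of (HTree.splitK 891 (HTree.leaf 152667 0 0 1) (HTree.splitD 548864 (HTree.splitK 894 (HTree.leaf 149830 0 0 2) (HTree.leaf 146093 0 0 2)) (HTree.leaf 146387 0 0 1))) (by decide +kernel)

theorem hb4_46 : BoxOK 885 898 524288 557056 := BoxOK.splitD hb4_47 hb4_48

theorem hb4_50 : BoxOK 898 912 524288 540672 :=
  boxOK_of (HTree.splitK 905 (HTree.splitD 532480 (HTree.splitK 901 (HTree.leaf 142937 0 0 2) (HTree.leaf 139364 0 0 2)) (HTree.splitK 901 (HTree.leaf 143118 1 0 2) (HTree.leaf 139503 0 0 2))) (HTree.splitD 532480 (HTree.splitK 908 (HTree.leaf 136709 0 0 2) (HTree.leaf 133222 0 0 2)) (HTree.leaf 133291 0 0 1))) (by decide +kernel)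

theorem hb4_51 : BoxOK 898 912 540672 557056 :=
  boxOK_of (HTree.splitK 905 (HTree.splitD 548864 (HTree.splitK 901 (HTree.leaf 143326 0 0 2) (HTree.leaf 139684 4 0 2)) (HTree.leaf 139892 0 0 1)) (HTree.leaf 133403 0 0 1)) (by decide +kernel)

theorem hb4_49 : BoxOK 898 912 524288 557056 := BoxOK.splitD hb4_50 hb4_51

theorem hb4_45 : BoxOK 885 912 524288 557056 := BoxOK.splitK hb4_46 hb4_49

theorem hb4_52 : BoxOK 885 912 557056 589824 :=
  boxOK_of (HTree.splitK 898 (HTree.splitD 573440 (HTree.splitK 891 (HTree.leaf 153435 0 0 2) (HTree.leaf 146723 3 0 1)) (HTree.splitK 891 (HTree.leaf 154411 0 0 4) (HTree.leaf 147517 0 0 2))) (HTree.splitD 573440 (HTree.splitK 905 (HTree.leaf 140142 0 0 1) (HTree.leaf 133723 0 0 2)) (HTree.splitK 905 (HTree.leaf 140788 0 0 2) (HTree.leaf 134214 0 0 2)))) (by decide +kernel)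

theorem hb4_44 : BoxOK 885 912 524288 589824 := BoxOK.splitD hb4_45 hb4_52

theorem hb4_53 : BoxOK 885 912 589824 655360 :=
  boxOK_of (HTree.splitD 622592 (HTree.splitK 898 (HTree.splitD 606208 (HTree.splitK 891 (HTree.leaf 155600 0 0 4) (HTree.leaf 148535 2 0 4)) (HTree.leaf 149777 3 0 1)) (HTree.splitD 606208 (HTree.splitK 905 (HTree.leaf 141625 0 0 4) (HTree.leaf 134880 0 0 4)) (HTree.splitK 905 (HTree.leaf 142670 0 0 8) (HTree.leaf 135750 3 0 8)))) (HTree.splitK 898 (HTree.leaf 151270 0 0 2) (HTree.leaf 136837 3 0 2))) (by decide +kernel)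

theorem hb4_43 : BoxOK 885 912 524288 655360 := BoxOK.splitD hb4_44 hb4_53

theorem hb4_54 : BoxOK 885 912 655360 786432 :=
  boxOK_of (HTree.splitD 720896 (HTree.splitD 688128 (HTree.splitK 898 (HTree.leaf 155162 0 0 8) (HTree.leaf 139780 0 0 8)) (HTree.splitK 898 (HTree.leaf 160510 0 0 16) (HTree.leaf 144014 0 0 16))) (HTree.leaf 149900 0 0 2)) (by decide +kernel)

theorem hb4_42 : BoxOK 885 912 524288 786432 := BoxOK.splitD hb4_43 hb4_54

theorem hb4_55 : BoxOK 885 912 786432 1048576 :=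
  boxOK_of (HTree.leaf 165229 0 2711 16) (by decide +kernel)

theorem hb4_41 : BoxOK 885 912 524288 1048576 := BoxOK.splitD hb4_42 hb4_55

theorem hb4_1 : BoxOK 885 912 0 1048576 := BoxOK.splitD hb4_2 hb4_41

/-- The box of this module. -/
theorem humpBox4 : BoxOK 885 912 0 1048576 := hb4_1

end Vale.Agent.Lib.P232.Hump
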