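import Vale.Agent.Lib.P232.CertHump5

/-! Certificate data for the hump: `M` between `(912/1024)²` and `(1023/1024)²`. -/

namespace Vale.Agent.Lib.P232.Hump

theorem hb5_3 : BoxOK 912 1023 0 262144 :=
  boxOK_of (HTree.splitD 131072 (HTree.splitK 967 (HTree.splitD 65536 (HTree.splitK 939 (HTree.splitD 32768 (HTree.splitK 925 (HTree.leaf 122051 0 0 8) (HTree.leaf 110076 0 0 8)) (HTree.splitK 925 (HTree.leaf 122051 0 0 8) (HTree.leaf 110076 0 0 8))) (HTree.splitD 32768 (HTree.splitK 953 (HTree.leaf 97963 0 0 16) (HTree.leaf 85471 0 0 16)) (HTree.splitK 953 (HTree.leaf 97963 0 0 16) (HTree.leaf 85471 0 0 16)))) (HTree.splitK 939 (HTree.splitD 98304 (HTree.splitK 925 (HTree.leaf 122051 0 0 8) (HTree.leaf 110076 0 0 8)) (HTree.splitK 925 (HTree.leaf 122051 0 0 8) (HTree.leaf 110076 0 0 8))) (HTree.splitD 98304 (HTree.splitK 953 (HTree.leaf 97963 0 0 16) (HTree.leaf 85471 0 0 16)) (HTree.splitK 953 (HTree.leaf 97963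 0 0 16) (HTree.leaf 85471 0 0 16))))) (HTree.splitD 65536 (HTree.splitK 995 (HTree.splitD 32768 (HTree.splitK 981 (HTree.leaf 72418 0 0 32) (HTree.leaf 57899 0 0 32)) (HTree.splitK 981 (HTree.leaf 72418 0 0 32) (HTree.leaf 57899 0 0 32))) (HTree.splitD 32768 (HTree.splitK 1009 (HTree.leaf 40662 4 0 32) (HTree.splitD 16384 (HTree.splitK 1016 (HTree.leaf 29257 0 0 32) (HTree.leaf 10227 0 0 32)) (HTree.splitK 1016 (HTree.leaf 29257 0 0 32) (HTree.leaf 10227 0 0 32)))) (HTree.splitK 1009 (HTree.leaf 40662 4 0 32) (HTree.splitD 49152 (HTree.splitK 1016 (HTree.leaf 29257 0 0 32) (HTree.leaf 10227 0 0 32)) (HTree.splitK 1016 (HTree.leaf 29257 0 0 32) (HTree.leaf 10227 0 0 32)))))) (HTree.splitK 995 (HTree.splitD 98304 (HTree.splitK 981 (HTree.leaf 72418 0 0 32) (HTree.leaf 57899 0 0 32)) (HTree.splitK 981 (HTree.leaf 72418 0 0 32) (HTree.leaf 57899 0 0 32))) (HTree.splitD 98304 (HTree.splitK 1009 (HTree.leaf 40662 4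 0 32) (HTree.splitD 81920 (HTree.splitK 1016 (HTree.leaf 29257 0 0 32) (HTree.leaf 10227 0 0 32)) (HTree.splitK 1016 (HTree.leaf 29257 0 0 32) (HTree.leaf 10227 0 0 32)))) (HTree.splitK 1009 (HTree.leaf 40662 4 0 32) (HTree.splitD 114688 (HTree.splitK 1016 (HTree.leaf 29257 0 0 32) (HTree.leaf 10227 0 0 32)) (HTree.splitK 1016 (HTree.leaf 29257 0 0 32) (HTree.leaf 10227 0 0 32)))))))) (HTree.splitK 967 (HTree.splitD 196608 (HTree.splitK 939 (HTree.splitD 163840 (HTree.splitK 925 (HTree.leaf 122051 0 0 8) (HTree.leaf 110076 0 0 8)) (HTree.splitK 925 (HTree.leaf 122051 0 0 4) (HTree.leaf 110076 0 0 8))) (HTree.splitD 163840 (HTree.splitK 953 (HTree.leaf 97963 0 0 8) (HTree.leaf 85471 0 0 16)) (HTree.splitK 953 (HTree.leaf 97963 0 0 8) (HTree.leaf 85471 0 0 16)))) (HTree.splitK 939 (HTree.splitD 229376 (HTree.splitK 925 (HTree.leaf 122051 0 0 4) (HTree.leaf 110076 0 0 8)) (HTree.splitK 925 (HTree.leaf 122051 0 0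 4) (HTree.leaf 110076 0 0 4))) (HTree.splitD 229376 (HTree.splitK 953 (HTree.leaf 97963 0 0 8) (HTree.leaf 85471 0 0 16)) (HTree.splitK 953 (HTree.leaf 97963 0 0 8) (HTree.leaf 85471 0 0 16))))) (HTree.splitD 196608 (HTree.splitK 995 (HTree.splitD 163840 (HTree.splitK 981 (HTree.leaf 72418 0 0 32) (HTree.leaf 57899 0 0 32)) (HTree.splitK 981 (HTree.leaf 72418 0 0 32) (HTree.leaf 57899 0 0 32))) (HTree.splitD 163840 (HTree.splitK 1009 (HTree.leaf 40662 4 0 32) (HTree.splitD 147456 (HTree.splitK 1016 (HTree.leaf 29257 0 0 32) (HTree.leaf 10227 0 0 32)) (HTree.splitK 1016 (HTree.leaf 29257 0 0 32) (HTree.leaf 10227 0 0 32)))) (HTree.splitK 1009 (HTree.leaf 40662 4 0 32) (HTree.splitD 180224 (HTree.splitK 1016 (HTree.leaf 29257 0 0 32) (HTree.leaf 10227 0 0 32)) (HTree.splitK 1016 (HTree.leaf 29257 0 0 32) (HTree.leaf 10227 0 0 32)))))) (HTree.splitK 995 (HTree.splitD 229376 (HTree.splitK 981 (HTree.leaf 72418 0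 0 32) (HTree.leaf 57899 0 0 32)) (HTree.splitK 981 (HTree.leaf 72418 0 0 32) (HTree.leaf 57899 0 0 32))) (HTree.splitD 229376 (HTree.splitK 1009 (HTree.leaf 40662 4 0 32) (HTree.splitD 212992 (HTree.splitK 1016 (HTree.leaf 29257 0 0 32) (HTree.leaf 10227 0 0 32)) (HTree.splitK 1016 (HTree.leaf 29257 0 0 32) (HTree.leaf 10227 0 0 32)))) (HTree.splitK 1009 (HTree.leaf 40662 4 0 32) (HTree.splitD 245760 (HTree.splitK 1016 (HTree.leaf 29257 0 0 32) (HTree.leaf 10227 0 0 32)) (HTree.splitK 1016 (HTree.leaf 29257 0 0 32) (HTree.leaf 10227 0 0 32))))))))) (by decide +kernel)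

theorem hb5_6 : BoxOK 912 967 262144 393216 :=
  boxOK_of (HTree.splitD 327680 (HTree.splitK 939 (HTree.splitD 294912 (HTree.splitK 925 (HTree.leaf 122051 0 0 2) (HTree.leaf 110076 0 0 4)) (HTree.splitK 925 (HTree.leaf 122051 0 0 1) (HTree.leaf 110076 0 0 4))) (HTree.splitD 294912 (HTree.splitK 953 (HTree.leaf 97963 0 0 8) (HTree.leaf 85471 0 0 16)) (HTree.splitK 953 (HTree.leaf 97963 0 0 8) (HTree.leaf 85471 0 0 16)))) (HTree.splitK 939 (HTree.splitD 360448 (HTree.splitK 925 (HTree.splitD 344064 (HTree.splitK 918 (HTree.leaf 127874 0 0 4) (HTree.leaf 122051 0 0 4)) (HTree.splitK 918 (HTree.leaf 127874 0 0 4) (HTree.leaf 122051 0 0 4))) (HTree.leaf 110076 0 0 2)) (HTree.splitK 925 (HTree.splitD 376832 (HTree.splitK 918 (HTree.leaf 127874 0 0 4) (HTree.leaf 122051 0 0 4)) (HTree.splitK 918 (HTree.leaf 127874 0 0 4) (HTree.leaf 122051 0 0 4))) (HTree.leaf 110076 0 0 1))) (HTree.splitD 360448 (HTree.splitK 953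 (HTree.leaf 97963 0 0 8) (HTree.leaf 85471 0 0 16)) (HTree.splitK 953 (HTree.leaf 97963 0 0 8) (HTree.leaf 85471 0 0 16))))) (by decide +kernel)

theorem hb5_7 : BoxOK 967 1023 262144 393216 :=
  boxOK_of (HTree.splitD 327680 (HTree.splitK 995 (HTree.splitD 294912 (HTree.splitK 981 (HTree.leaf 72418 0 0 16) (HTree.leaf 57899 0 0 32)) (HTree.splitK 981 (HTree.leaf 72418 0 0 16) (HTree.leaf 57899 0 0 32))) (HTree.splitD 294912 (HTree.splitK 1009 (HTree.leaf 40662 4 0 32) (HTree.splitD 278528 (HTree.splitK 1016 (HTree.leaf 29257 0 0 32) (HTree.leaf 10227 0 0 32)) (HTree.splitK 1016 (HTree.leaf 29257 0 0 32) (HTree.leaf 10227 0 0 32)))) (HTree.splitK 1009 (HTree.leaf 40662 4 0 32) (HTree.splitD 311296 (HTree.splitK 1016 (HTree.leaf 29257 0 0 32) (HTree.leaf 10227 0 0 32)) (HTree.splitK 1016 (HTree.leaf 29257 0 0 32) (HTree.leaf 10227 0 0 32)))))) (HTree.splitK 995 (HTree.splitD 360448 (HTree.splitK 981 (HTree.leaf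 72418 0 0 16) (HTree.leaf 57899 0 0 32)) (HTree.splitK 981 (HTree.leaf 72418 0 0 16) (HTree.leaf 57899 0 0 32))) (HTree.splitD 360448 (HTree.splitK 1009 (HTree.leaf 40662 4 0 32) (HTree.splitD 344064 (HTree.splitK 1016 (HTree.leaf 29257 0 0 32) (HTree.leaf 10227 0 0 32)) (HTree.splitK 1016 (HTree.leaf 29257 0 0 32) (HTree.leaf 10227 0 0 32)))) (HTree.splitK 1009 (HTree.leaf 40662 4 0 32) (HTree.splitD 376832 (HTree.splitK 1016 (HTree.leaf 29257 0 0 32) (HTree.leaf 10227 0 0 32)) (HTree.splitK 1016 (HTree.leaf 29257 0 0 32) (HTree.leaf 10227 0 0 32))))))) (by decide +kernel)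

theorem hb5_5 : BoxOK 912 1023 262144 393216 := BoxOK.splitK hb5_6 hb5_7

theorem hb5_10 : BoxOK 912 967 393216 458752 :=
  boxOK_of (HTree.splitK 939 (HTree.splitD 425984 (HTree.splitK 925 (HTree.splitD 409600 (HTree.splitK 918 (HTree.leaf 127874 0 0 4) (HTree.leaf 122051 0 0 4)) (HTree.splitK 918 (HTree.leaf 127874 0 0 2) (HTree.leaf 122051 0 0 4))) (HTree.splitD 409600 (HTree.leaf 110076 0 0 1) (HTree.splitK 932 (HTree.leaf 116123 1 0 4) (HTree.leaf 110076 0 0 8)))) (HTree.splitK 925 (HTree.splitD 442368 (HTree.splitK 918 (HTree.leaf 127874 0 0 2) (HTree.leaf 122051 0 0 4)) (HTree.splitK 918 (HTree.leaf 127874 0 0 2) (HTree.leaf 122051 0 0 2))) (HTree.splitD 442368 (HTree.splitK 932 (HTree.leaf 116123 1 0 4) (HTree.leaf 110076 0 0 8)) (HTree.splitK 932 (HTree.leaf 116123 1 0 4) (HTree.leaf 110076 0 0 8))))) (HTree.splitD 425984 (HTree.splitK 953 (HTree.leaf 97963 0 0 4) (HTree.leaf 85471 0 0 16)) (HTree.splitK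 953 (HTree.leaf 97963 0 0 4) (HTree.leaf 85471 0 0 16)))) (by decide +kernel)

theorem hb5_11 : BoxOK 912 967 458752 524288 :=
  boxOK_of (HTree.splitK 939 (HTree.splitD 491520 (HTree.splitK 925 (HTree.splitD 475136 (HTree.splitK 918 (HTree.leaf 127874 0 0 2) (HTree.leaf 122051 0 0 2)) (HTree.splitK 918 (HTree.leaf 127874 0 0 2) (HTree.leaf 122051 0 0 2))) (HTree.splitD 475136 (HTree.splitK 932 (HTree.leaf 116123 1 0 4) (HTree.leaf 110076 0 0 8)) (HTree.splitK 932 (HTree.leaf 116123 1 0 4) (HTree.leaf 110076 0 0 8)))) (HTree.splitK 925 (HTree.splitD 507904 (HTree.splitK 918 (HTree.leaf 127874 0 0 2) (HTree.leaf 122051 0 0 2)) (HTree.splitK 918 (HTree.leaf 127874 0 0 2) (HTree.leaf 122051 0 0 2))) (HTree.splitD 507904 (HTree.splitK 932 (HTree.leaf 116123 1 0 4) (HTree.leaf 110076 0 0 4)) (HTree.splitK 932 (HTree.leaf 116123 1 0 4) (HTree.leaf 110076 0 0 8))))) (HTree.splitD 491520 (HTree.splitK 953 (HTree.leaf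 97963 0 0 4) (HTree.leaf 85471 0 0 16)) (HTree.splitK 953 (HTree.leaf 97963 0 0 4) (HTree.leaf 85471 0 0 8)))) (by decide +kernel)

theorem hb5_9 : BoxOK 912 967 393216 524288 := BoxOK.splitD hb5_10 hb5_11

theorem hb5_12 : BoxOK 967 1023 393216 524288 :=
  boxOK_of (HTree.splitD 458752 (HTree.splitK 995 (HTree.splitD 425984 (HTree.splitK 981 (HTree.leaf 72418 0 0 16) (HTree.leaf 57899 0 0 32)) (HTree.splitK 981 (HTree.leaf 72418 0 0 16) (HTree.leaf 57899 0 0 32))) (HTree.splitD 425984 (HTree.splitK 1009 (HTree.leaf 40662 4 0 32) (HTree.splitD 409600 (HTree.splitK 1016 (HTree.leaf 29257 0 0 32) (HTree.leaf 10227 0 0 32)) (HTree.splitK 1016 (HTree.leaf 29257 0 0 32) (HTree.leaf 10227 0 0 32)))) (HTree.splitK 1009 (HTree.leaf 40662 4 0 32) (HTree.splitD 442368 (HTree.splitK 1016 (HTree.leaf 29257 0 0 32) (HTree.leaf 10227 0 0 32)) (HTree.splitK 1016 (HTree.leaf 29257 0 0 32) (HTree.leaf 10227 0 0 32)))))) (HTree.splitK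 995 (HTree.splitD 491520 (HTree.splitK 981 (HTree.leaf 72418 0 0 16) (HTree.leaf 57899 0 0 32)) (HTree.splitK 981 (HTree.leaf 72418 0 0 16) (HTree.leaf 57899 0 0 32))) (HTree.splitD 491520 (HTree.splitK 1009 (HTree.leaf 40662 4 0 32) (HTree.splitD 475136 (HTree.splitK 1016 (HTree.leaf 29257 0 0 32) (HTree.leaf 10227 0 0 32)) (HTree.splitK 1016 (HTree.leaf 29257 0 0 32) (HTree.leaf 10227 0 0 32)))) (HTree.splitK 1009 (HTree.leaf 40662 4 0 32) (HTree.splitD 507904 (HTree.splitK 1016 (HTree.leaf 29257 0 0 32) (HTree.leaf 10227 0 0 32)) (HTree.splitK 1016 (HTree.leaf 29257 0 0 32) (HTree.leaf 10227 0 0 32))))))) (by decide +kernel)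

theorem hb5_8 : BoxOK 912 1023 393216 524288 := BoxOK.splitK hb5_9 hb5_12

theorem hb5_4 : BoxOK 912 1023 262144 524288 := BoxOK.splitD hb5_5 hb5_8

theorem hb5_2 : BoxOK 912 1023 0 524288 := BoxOK.splitD hb5_3 hb5_4

theorem hb5_17 : BoxOK 912 967 524288 589824 :=
  boxOK_of (HTree.splitK 939 (HTree.splitD 557056 (HTree.splitK 925 (HTree.splitD 540672 (HTree.splitK 918 (HTree.leaf 127874 0 0 2) (HTree.leaf 122051 0 0 2)) (HTree.splitK 918 (HTree.leaf 128141 0 0 2) (HTree.leaf 122051 0 0 2))) (HTree.splitD 540672 (HTree.splitK 932 (HTree.leaf 116123 1 0 4) (HTree.leaf 110076 0 0 8)) (HTree.splitK 932 (HTree.leaf 116123 1 0 4) (HTree.leaf 110076 0 0 8)))) (HTree.splitK 925 (HTree.splitD 573440 (HTree.splitK 918 (HTree.leaf 128339 0 0 4) (HTree.leaf 122196 3 0 4)) (HTree.splitK 918 (HTree.leaf 128701 3 0 4) (HTree.leaf 122388 0 0 4))) (HTree.splitD 573440 (HTree.splitK 932 (HTree.leaf 116123 1 0 4) (HTree.leaf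 110076 0 0 8)) (HTree.leaf 110076 0 0 1)))) (HTree.splitD 557056 (HTree.splitK 953 (HTree.leaf 97963 0 0 4) (HTree.leaf 85471 0 0 16)) (HTree.splitK 953 (HTree.leaf 97963 0 0 4) (HTree.leaf 85471 0 0 16)))) (by decide +kernel)

theorem hb5_18 : BoxOK 912 967 589824 655360 :=
  boxOK_of (HTree.splitK 939 (HTree.splitD 622592 (HTree.splitK 925 (HTree.splitD 606208 (HTree.splitK 918 (HTree.leaf 129218 0 0 4) (HTree.leaf 122750 0 0 4)) (HTree.leaf 123284 0 0 2)) (HTree.leaf 110248 0 0 2)) (HTree.splitK 925 (HTree.leaf 124009 0 0 4) (HTree.leaf 110791 2 0 4))) (HTree.splitD 622592 (HTree.splitK 953 (HTree.leaf 97963 0 0 8) (HTree.leaf 85471 0 0 16)) (HTree.splitK 953 (HTree.leaf 98144 0 0 8) (HTree.leaf 85471 0 0 16)))) (by decide +kernel)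

theorem hb5_16 : BoxOK 912 967 524288 655360 := BoxOK.splitD hb5_17 hb5_18

theorem hb5_19 : BoxOK 967 1023 524288 655360 :=
  boxOK_of (HTree.splitD 589824 (HTree.splitK 995 (HTree.splitD 557056 (HTree.splitK 981 (HTree.leaf 72418 0 0 16) (HTree.leaf 57899 0 0 32)) (HTree.splitK 981 (HTree.leaf 72418 0 0 16) (HTree.leaf 57899 0 0 32))) (HTree.splitD 557056 (HTree.splitK 1009 (HTree.leaf 40662 4 0 32) (HTree.splitD 540672 (HTree.splitK 1016 (HTree.leaf 29257 0 0 32) (HTree.leaf 10227 0 0 32)) (HTree.splitK 1016 (HTree.leaf 29257 0 0 32) (HTree.leaf 10227 0 0 32)))) (HTree.splitK 1009 (HTree.leaf 40662 4 0 32) (HTree.splitD 573440 (HTree.splitK 1016 (HTree.leaf 29257 0 0 32) (HTree.leaf 10227 0 0 32)) (HTree.splitK 1016 (HTree.leaf 29257 0 0 32) (HTree.leaf 10227 0 0 32)))))) (HTree.splitK 995 (HTree.splitD 622592 (HTree.splitK 981 (HTree.leaf 72418 0 0 16) (HTree.leaf 57899 0 0 32)) (HTree.splitK 981 (HTree.leaf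 72418 0 0 16) (HTree.leaf 57899 0 0 32))) (HTree.splitD 622592 (HTree.splitK 1009 (HTree.leaf 40662 4 0 32) (HTree.splitD 606208 (HTree.splitK 1016 (HTree.leaf 29257 0 0 32) (HTree.leaf 10227 0 0 32)) (HTree.splitK 1016 (HTree.leaf 29257 0 0 32) (HTree.leaf 10227 0 0 32)))) (HTree.splitK 1009 (HTree.leaf 40662 4 0 32) (HTree.splitD 638976 (HTree.splitK 1016 (HTree.leaf 29257 0 0 32) (HTree.leaf 10227 0 0 32)) (HTree.splitK 1016 (HTree.leaf 29257 0 0 32) (HTree.leaf 10227 0 0 32))))))) (by decide +kernel)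

theorem hb5_15 : BoxOK 912 1023 524288 655360 := BoxOK.splitK hb5_16 hb5_19

theorem hb5_20 : BoxOK 912 1023 655360 786432 :=
  boxOK_of (HTree.splitK 967 (HTree.splitD 720896 (HTree.splitK 939 (HTree.splitD 688128 (HTree.splitK 925 (HTree.leaf 126131 1 0 8) (HTree.leaf 112044 0 0 8)) (HTree.splitK 925 (HTree.leaf 129357 4 0 16) (HTree.leaf 114235 0 0 16))) (HTree.splitD 688128 (HTree.splitK 953 (HTree.leaf 98592 2 0 16) (HTree.leaf 85471 0 0 16)) (HTree.splitK 953 (HTree.leaf 99775 0 0 16) (HTree.leaf 85955 0 0 16)))) (HTree.splitK 939 (HTree.leaf 117632 3 0 4) (HTree.splitD 753664 (HTree.splitK 953 (HTree.leaf 101957 0 0 32) (HTree.leaf 86974 0 0 32)) (HTree.leaf 89026 1 0 8)))) (HTree.splitD 720896 (HTree.splitK 995 (HTree.splitD 688128 (HTree.splitK 981 (HTree.leaf 72418 0 0 32) (HTree.leaf 57899 0 0 32)) (HTree.splitK 981 (HTree.leaf 72418 0 0 32) (HTree.leaf 57899 0 0 32))) (HTree.splitD 688128 (HTree.splitK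 1009 (HTree.leaf 40662 4 0 32) (HTree.splitD 671744 (HTree.splitK 1016 (HTree.leaf 29257 0 0 32) (HTree.leaf 10227 0 0 32)) (HTree.splitK 1016 (HTree.leaf 29257 0 0 32) (HTree.leaf 10227 0 0 32)))) (HTree.splitK 1009 (HTree.leaf 40662 4 0 32) (HTree.splitD 704512 (HTree.splitK 1016 (HTree.leaf 29257 0 0 32) (HTree.leaf 10227 0 0 32)) (HTree.splitK 1016 (HTree.leaf 29257 0 0 32) (HTree.leaf 10227 0 0 32)))))) (HTree.splitK 995 (HTree.splitD 753664 (HTree.splitK 981 (HTree.leaf 72626 0 0 32) (HTree.leaf 57899 0 0 32)) (HTree.leaf 57899 0 0 4)) (HTree.splitD 753664 (HTree.splitK 1009 (HTree.leaf 40662 4 0 32) (HTree.splitD 737280 (HTree.splitK 1016 (HTree.leaf 29257 0 0 32) (HTree.leaf 10227 0 0 32)) (HTree.splitK 1016 (HTree.leaf 29257 0 0 32) (HTree.leaf 10227 0 0 32)))) (HTree.splitK 1009 (HTree.leaf 40662 4 0 32) (HTree.splitD 770048 (HTree.splitK 1016 (HTree.leaf 29257 0 0 32) (HTree.leaf 10227 0 0 32)) (HTree.splitK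 1016 (HTree.leaf 29257 0 0 32) (HTree.leaf 10227 0 0 32)))))))) (by decide +kernel)

theorem hb5_14 : BoxOK 912 1023 524288 786432 := BoxOK.splitD hb5_15 hb5_20

theorem hb5_21 : BoxOK 912 1023 786432 1048576 :=
  boxOK_of (HTree.splitD 917504 (HTree.splitK 967 (HTree.splitD 851968 (HTree.splitK 939 (HTree.leaf 129815 0 0 32) (HTree.leaf 92487 0 0 32)) (HTree.splitK 939 (HTree.leaf 147405 0 0 32) (HTree.leaf 106478 0 0 32))) (HTree.splitD 851968 (HTree.splitK 995 (HTree.leaf 58262 0 0 16) (HTree.splitD 819200 (HTree.splitK 1009 (HTree.leaf 40662 4 0 32) (HTree.splitD 802816 (HTree.splitK 1016 (HTree.leaf 29257 0 0 32) (HTree.leaf 10227 0 0 32)) (HTree.splitK 1016 (HTree.leaf 29257 0 0 32) (HTree.leaf 10227 0 0 32)))) (HTree.splitK 1009 (HTree.leaf 40662 4 0 32) (HTree.splitD 835584 (HTree.splitK 1016 (HTree.leaf 29257 0 0 32) (HTree.leaf 10227 0 0 32)) (HTree.splitK 1016 (HTree.leaf 29257 0 0 32) (HTree.leaf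 10227 0 0 32)))))) (HTree.splitK 995 (HTree.leaf 61781 0 0 32) (HTree.splitD 884736 (HTree.splitK 1009 (HTree.leaf 40817 0 0 32) (HTree.splitD 868352 (HTree.splitK 1016 (HTree.leaf 29257 0 0 32) (HTree.leaf 10227 0 0 32)) (HTree.splitK 1016 (HTree.leaf 29257 0 0 32) (HTree.leaf 10227 0 0 32)))) (HTree.splitK 1009 (HTree.leaf 41690 0 0 32) (HTree.splitD 901120 (HTree.splitK 1016 (HTree.leaf 29267 0 0 32) (HTree.leaf 10227 0 0 32)) (HTree.splitK 1016 (HTree.leaf 29438 0 0 32) (HTree.leaf 10227 0 0 32)))))))) (HTree.splitK 967 (HTree.leaf 141678 0 0 32) (HTree.splitD 983040 (HTree.splitK 995 (HTree.leaf 75644 2 0 32) (HTree.splitD 950272 (HTree.splitK 1009 (HTree.leaf 44666 5 0 32) (HTree.splitD 933888 (HTree.splitK 1016 (HTree.leaf 29646 0 0 32) (HTree.leaf 10227 0 0 32)) (HTree.splitK 1016 (HTree.leaf 30387 5 0 32) (HTree.leaf 10227 0 0 32)))) (HTree.splitK 1009 (HTree.leaf 49859 0 0 32) (HTree.splitD 966656 (HTree.splitK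 1016 (HTree.leaf 31182 3 0 32) (HTree.leaf 10227 0 0 32)) (HTree.splitK 1016 (HTree.leaf 31182 3 0 32) (HTree.leaf 10227 0 0 32)))))) (HTree.splitK 995 (HTree.leaf 88413 0 0 32) (HTree.splitD 1015808 (HTree.splitK 1009 (HTree.leaf 49859 0 0 32) (HTree.splitD 999424 (HTree.splitK 1016 (HTree.leaf 31182 3 0 32) (HTree.leaf 10227 0 0 32)) (HTree.splitK 1016 (HTree.leaf 31182 3 0 32) (HTree.leaf 10227 0 0 32)))) (HTree.splitK 1009 (HTree.leaf 49859 0 0 32) (HTree.splitD 1032192 (HTree.splitK 1016 (HTree.leaf 31182 3 0 32) (HTree.leaf 10227 0 0 32)) (HTree.splitK 1016 (HTree.leaf 31182 3 0 32) (HTree.leaf 10227 0 0 32))))))))) (by decide +kernel)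

theorem hb5_13 : BoxOK 912 1023 524288 1048576 := BoxOK.splitD hb5_14 hb5_21

theorem hb5_1 : BoxOK 912 1023 0 1048576 := BoxOK.splitD hb5_2 hb5_13

/-- The box of this module. -/
theorem humpBox5 : BoxOK 912 1023 0 1048576 := hb5_1

end Vale.Agent.Lib.P232.Hump
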