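import Vale.Agent.Lib.P232.ExtCells

namespace Vale.Agent.Lib.P232.Cells

/-- The certificate tree on the longer range. -/
def cellDataX : CellTree :=
  (CellTree.splitH 263 (CellTree.splitK 800 (CellTree.splitH 131 (CellTree.splitK 688 (CellTree.splitH 65 (CellTree.splitK 632 (CellTree.splitH 32 CellTree.skip (CellTree.splitK 604 (CellTree.splitH 48 CellTree.skip (CellTree.leaf false (347629) (10124) 16)) (CellTree.leaf true (358275) (6908) 1))) (CellTree.splitH 32 CellTree.skip (CellTree.leaf true (330409) (6935) 4))) (CellTree.splitK 632 (CellTree.splitH 98 (CellTree.splitK 604 (CellTree.leaf false (338266) (13381) 32) (CellTree.leaf false (308644) (13501) 16)) (CellTree.splitK 604 (CellTree.leaf false (321287) (19288) 32) (CellTree.leaf false (292764) (19550) 64))) (CellTree.splitH 98 (CellTree.leaf true (315929) (13471) 8) (CellTree.splitK 660 (CellTree.leaf false (267902) (19777) 32) (CellTree.leaf false (246097) (19977) 32))))) (CellTree.splitH 65 (CellTree.splitK 744 (CellTree.leaf true (319750) (-2) 2) CellTree.skip) (CellTree.leaf true (275022) (13636) 8))) (CellTree.splitK 688 (CellTree.splitH 197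 (CellTree.splitK 632 (CellTree.splitH 164 (CellTree.leaf false (278014) (25168) 16) (CellTree.leaf false (264206) (30428) 32)) (CellTree.splitH 164 (CellTree.splitK 660 (CellTree.leaf false (253979) (25561) 64) (CellTree.leaf false (232965) (25905) 32)) (CellTree.splitK 660 (CellTree.leaf false (240820) (31028) 64) (CellTree.leaf false (220460) (31550) 32)))) (CellTree.splitK 632 (CellTree.splitH 230 (CellTree.leaf false (251164) (35396) 32) (CellTree.leaf false (238722) (40135) 16)) (CellTree.splitH 230 (CellTree.splitK 660 (CellTree.leaf false (228265) (36243) 32) (CellTree.leaf false (208438) (36977) 16)) (CellTree.splitK 660 (CellTree.leaf false (216156) (41274) 32) (CellTree.leaf false (196751) (42253) 8))))) (CellTree.splitH 197 (CellTree.splitK 744 (CellTree.splitH 164 (CellTree.leaf true (269572) (25306) 16) (CellTree.splitK 716 (CellTree.leaf false (202619) (32008) 16) (CellTree.leaf false (186890) (32411) 16))) (CellTree.leaf true (248711) (25648) 8)) (CellTree.splitK 744 (CellTree.splitH 230 (CellTree.splitK 716 (CellTree.leaf false (191145) (37617) 16) (CellTree.leaf false (175964) (38179) 16)) (CellTree.splitK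 716 (CellTree.leaf false (179928) (43101) 8) (CellTree.leaf false (165236) (43842) 16))) (CellTree.leaf false (150657) (39116) 2))))) (CellTree.splitH 131 (CellTree.splitK 912 (CellTree.leaf true (233687) (-2) 64) (CellTree.leaf true (185363) (-2) 64)) (CellTree.splitK 912 (CellTree.splitH 197 (CellTree.leaf true (200352) (26439) 64) (CellTree.leaf false (80404) (41716) 16)) (CellTree.leaf true (158232) (27128) 64)))) (CellTree.splitK 800 (CellTree.splitH 395 (CellTree.splitK 688 (CellTree.splitH 329 (CellTree.splitK 632 (CellTree.splitH 296 (CellTree.splitK 604 (CellTree.leaf false (253250) (42960) 64) (CellTree.leaf false (227835) (44282) 32)) (CellTree.splitK 604 (CellTree.leaf false (241782) (46950) 64) (CellTree.leaf false (214946) (49192) 16))) (CellTree.splitH 296 (CellTree.splitK 660 (CellTree.leaf false (204329) (46187) 8) (CellTree.splitH 279 (CellTree.leaf false (185248) (47446) 4) (CellTree.leaf false (179686) (49956) 1))) (CellTree.splitK 660 (CellTree.splitH 312 (CellTree.leaf false (192601) (51059) 1) (CellTree.splitK 646 (CellTree.leaf false (198649) (52010) 16) (CellTree.leaf false (186887)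 (53433) 8))) (CellTree.splitH 312 (CellTree.splitK 674 (CellTree.leaf false (182790) (51879) 8) (CellTree.leaf false (173754) (52634) 8)) (CellTree.splitK 674 (CellTree.leaf false (177108) (54340) 4) (CellTree.leaf false (168127) (55174) 8)))))) (CellTree.splitK 632 (CellTree.splitH 362 (CellTree.splitK 604 (CellTree.leaf false (230621) (50833) 64) (CellTree.splitH 345 (CellTree.leaf false (205853) (52656) 4) (CellTree.splitK 618 (CellTree.leaf false (215544) (52561) 32) (CellTree.leaf false (197782) (55730) 8)))) (CellTree.splitK 604 (CellTree.leaf false (219534) (54690) 16) (CellTree.splitH 378 (CellTree.splitK 618 (CellTree.leaf false (206798) (55747) 16) (CellTree.leaf false (191225) (58228) 4)) (CellTree.splitK 618 (CellTree.leaf false (198773) (58670) 8) (CellTree.splitH 386 (CellTree.leaf false (185735) (60319) 2) (CellTree.splitK 625 (CellTree.leaf false (189323) (60541) 8) (CellTree.leaf false (182134) (61691) 4))))))) (CellTree.splitH 362 (CellTree.splitK 660 (CellTree.splitH 345 (CellTree.splitK 646 (CellTree.leaf false (191447) (54877) 8) (CellTree.leaf false (180754) (55980) 4)) (CellTree.splitK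 646 (CellTree.leaf false (185608) (57200) 2) (CellTree.splitH 353 (CellTree.leaf false (174888) (58417) 2) (CellTree.leaf false (171909) (59655) 1)))) (CellTree.splitH 345 (CellTree.splitK 674 (CellTree.leaf false (170998) (56987) 2) (CellTree.leaf false (162068) (57909) 4)) (CellTree.splitK 674 (CellTree.splitH 353 (CellTree.leaf false (165145) (59523) 2) (CellTree.leaf false (162170) (60812) 2)) (CellTree.leaf false (156258) (60532) 2)))) (CellTree.splitK 660 (CellTree.splitH 378 (CellTree.splitK 646 (CellTree.splitH 370 (CellTree.leaf false (179383) (59678) 1) (CellTree.splitK 639 (CellTree.leaf false (182561) (59979) 4) (CellTree.leaf false (176230) (60933) 4))) (CellTree.splitH 370 (CellTree.splitK 653 (CellTree.leaf false (173754) (60411) 4) (CellTree.leaf false (168511) (61067) 4)) (CellTree.splitK 653 (CellTree.leaf false (170695) (61655) 2) (CellTree.leaf false (165443) (62341) 2)))) (CellTree.splitK 646 (CellTree.splitH 386 (CellTree.splitK 639 (CellTree.leaf false (179005) (61364) 4) (CellTree.leaf false (173138) (62163) 2)) (CellTree.splitK 639 (CellTree.leaf false (175885) (62579) 2) (CellTree.leaf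 false (169989) (63416) 1))) (CellTree.splitH 386 (CellTree.splitK 653 (CellTree.leaf false (167585) (62920) 2) (CellTree.leaf false (162323) (63637) 2)) (CellTree.splitK 653 (CellTree.splitH 390 (CellTree.leaf false (164417) (64208) 2) (CellTree.leaf false (162809) (64862) 2)) (CellTree.leaf false (159145) (64957) 2))))) (CellTree.splitH 378 (CellTree.splitK 674 (CellTree.splitH 370 (CellTree.leaf false (158774) (62283) 1) (CellTree.splitK 667 (CellTree.leaf false (160453) (62992) 4) (CellTree.leaf false (155707) (63612) 4))) (CellTree.leaf false (149930) (63389) 2)) (CellTree.splitK 674 (CellTree.splitH 386 (CellTree.splitK 667 (CellTree.leaf false (157331) (64317) 2) (CellTree.leaf false (152588) (64963) 4)) (CellTree.splitK 667 (CellTree.leaf false (154149) (65667) 2) (CellTree.leaf false (149409) (66341) 4))) (CellTree.leaf false (143783) (66163) 2))))))) (CellTree.splitH 329 (CellTree.splitK 744 (CellTree.splitH 296 (CellTree.splitK 716 (CellTree.leaf false (168827) (48529) 2) (CellTree.leaf false (154578) (49469) 16)) (CellTree.splitK 716 (CellTree.splitH 312 (CellTree.leaf false (157684) (53977) 4) (CellTree.leaf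 false (152212) (56652) 4)) (CellTree.leaf false (143849) (55133) 16))) (CellTree.leaf false (131164) (51013) 8)) (CellTree.splitK 744 (CellTree.splitH 362 (CellTree.splitK 716 (CellTree.splitH 345 (CellTree.leaf false (146314) (59536) 4) (CellTree.leaf false (140652) (62303) 4)) (CellTree.leaf false (132881) (60922) 16)) (CellTree.splitK 716 (CellTree.splitH 378 (CellTree.leaf false (134485) (65319) 4) (CellTree.leaf false (128497) (68246) 8)) (CellTree.leaf false (120945) (67011) 16))) (CellTree.leaf false (111275) (63153) 16)))) (CellTree.splitK 688 (CellTree.splitH 461 (CellTree.splitK 632 (CellTree.splitH 428 (CellTree.splitK 604 (CellTree.splitH 411 (CellTree.splitK 590 (CellTree.leaf false (229635) (54837) 64) (CellTree.leaf false (209037) (58342) 16)) (CellTree.splitK 590 (CellTree.leaf false (224818) (56436) 64) (CellTree.leaf false (202477) (60625) 8))) (CellTree.splitH 411 (CellTree.splitK 618 (CellTree.leaf false (192433) (60979) 1) (CellTree.splitH 403 (CellTree.splitK 625 (CellTree.leaf false (185296) (62041) 4) (CellTree.leaf false (178598) (63038) 2)) (CellTree.splitK 625 (CellTree.leaf false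 (182140) (63217) 4) (CellTree.leaf false (175378) (64264) 2)))) (CellTree.splitK 618 (CellTree.splitH 419 (CellTree.splitK 611 (CellTree.leaf false (194525) (61813) 8) (CellTree.leaf false (186214) (63244) 4)) (CellTree.splitK 611 (CellTree.leaf false (190944) (63088) 8) (CellTree.leaf false (182983) (64421) 4))) (CellTree.splitH 419 (CellTree.splitK 625 (CellTree.leaf false (178906) (64422) 2) (CellTree.leaf false (172077) (65522) 1)) (CellTree.splitK 625 (CellTree.leaf false (175580) (65661) 1) (CellTree.splitH 423 (CellTree.leaf false (168679) (66816) 1) (CellTree.leaf false (166940) (67479) 1))))))) (CellTree.splitK 604 (CellTree.splitH 444 (CellTree.splitK 590 (CellTree.leaf false (215989) (59367) 32) (CellTree.leaf false (196111) (62839) 2)) (CellTree.splitK 590 (CellTree.leaf false (210737) (61110) 32) (CellTree.splitH 452 (CellTree.leaf false (189728) (65060) 4) (CellTree.leaf false (186344) (66237) 2)))) (CellTree.splitH 444 (CellTree.splitK 618 (CellTree.splitH 436 (CellTree.splitK 611 (CellTree.leaf false (187338) (64372) 8) (CellTree.leaf false (179229) (65789) 4)) (CellTree.splitK 611 (CellTree.leaf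 false (184019) (65554) 4) (CellTree.leaf false (175766) (67050) 2))) (CellTree.splitH 436 (CellTree.splitK 625 (CellTree.leaf false (171711) (67102) 1) (CellTree.splitH 432 (CellTree.leaf false (164724) (68323) 2) (CellTree.leaf false (162915) (69012) 2))) (CellTree.splitK 625 (CellTree.leaf false (168139) (68433) 1) (CellTree.leaf false (161072) (69714) 1)))) (CellTree.splitK 618 (CellTree.splitH 452 (CellTree.splitK 611 (CellTree.leaf false (180570) (66782) 4) (CellTree.leaf false (172163) (68362) 2)) (CellTree.splitK 611 (CellTree.leaf false (176967) (68064) 4) (CellTree.leaf false (168396) (69734) 4))) (CellTree.splitH 452 (CellTree.splitK 625 (CellTree.leaf false (164421) (69818) 2) (CellTree.leaf false (157269) (71162) 2)) (CellTree.splitK 625 (CellTree.leaf false (160532) (71266) 4) (CellTree.leaf false (153293) (72677) 4))))))) (CellTree.splitH 428 (CellTree.splitK 660 (CellTree.splitH 411 (CellTree.splitK 646 (CellTree.splitH 403 (CellTree.splitK 639 (CellTree.leaf false (172299) (63975) 1) (CellTree.splitH 399 (CellTree.leaf false (166368) (64858) 2) (CellTree.leaf false (164728) (65510) 1))) (CellTree.splitK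 639 (CellTree.splitH 407 (CellTree.leaf false (169033) (65247) 1) (CellTree.leaf false (167369) (65895) 1)) (CellTree.splitH 407 (CellTree.splitK 642 (CellTree.leaf false (166432) (65650) 2) (CellTree.leaf false (163068) (66171) 2)) (CellTree.leaf false (161387) (66840) 1)))) (CellTree.splitH 403 (CellTree.splitK 653 (CellTree.splitH 399 (CellTree.leaf false (160773) (65690) 2) (CellTree.leaf false (159123) (66361) 2)) (CellTree.leaf false (155488) (66477) 2)) (CellTree.splitK 653 (CellTree.splitH 407 (CellTree.leaf false (157452) (67041) 2) (CellTree.leaf false (155759) (67729) 2)) (CellTree.leaf false (152155) (67861) 2)))) (CellTree.splitK 646 (CellTree.splitH 419 (CellTree.splitK 639 (CellTree.splitH 415 (CellTree.leaf false (165681) (66552) 1) (CellTree.leaf false (163970) (67219) 1)) (CellTree.splitH 415 (CellTree.splitK 642 (CellTree.leaf false (163064) (66974) 2) (CellTree.leaf false (159682) (67519) 2)) (CellTree.leaf false (157952) (68207) 1))) (CellTree.splitK 639 (CellTree.splitH 423 (CellTree.leaf false (162231) (67896) 1) (CellTree.leaf false (160465) (68583) 1)) (CellTree.splitH 423 (CellTree.leaf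 false (156195) (68906) 2) (CellTree.leaf false (154410) (69617) 2)))) (CellTree.splitH 419 (CellTree.splitK 653 (CellTree.leaf false (154043) (68427) 1) (CellTree.leaf false (148734) (69282) 2)) (CellTree.splitK 653 (CellTree.leaf false (150533) (69854) 2) (CellTree.leaf false (145213) (70745) 4))))) (CellTree.splitH 411 (CellTree.splitK 674 (CellTree.splitH 403 (CellTree.leaf false (145751) (67925) 2) (CellTree.leaf false (142419) (69369) 2)) (CellTree.leaf false (136993) (69229) 4)) (CellTree.splitK 674 (CellTree.splitH 419 (CellTree.leaf false (138999) (70850) 4) (CellTree.leaf false (135482) (72374) 4)) (CellTree.leaf false (130293) (72253) 8)))) (CellTree.splitK 660 (CellTree.splitH 444 (CellTree.splitK 646 (CellTree.splitH 436 (CellTree.splitK 639 (CellTree.leaf false (158215) (69460) 1) (CellTree.leaf false (152136) (70522) 2)) (CellTree.splitK 639 (CellTree.leaf false (154505) (70904) 2) (CellTree.leaf false (148388) (72013) 2))) (CellTree.splitH 436 (CellTree.leaf false (141116) (72447) 2) (CellTree.leaf false (137337) (74017) 4))) (CellTree.splitK 646 (CellTree.splitH 452 (CellTree.leaf false (144489)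 (73565) 1) (CellTree.leaf false (140417) (75186) 4)) (CellTree.leaf false (133411) (75648) 4))) (CellTree.splitH 444 (CellTree.leaf false (122760) (75654) 2) (CellTree.leaf false (115180) (79075) 8))))) (CellTree.splitK 632 (CellTree.splitH 494 (CellTree.splitK 604 (CellTree.splitH 477 (CellTree.splitK 590 (CellTree.leaf false (204821) (63074) 16) (CellTree.splitH 469 (CellTree.leaf false (182340) (67630) 2) (CellTree.leaf false (178567) (68943) 4))) (CellTree.splitK 590 (CellTree.leaf false (198747) (65090) 16) (CellTree.leaf false (174548) (70341) 1))) (CellTree.splitH 477 (CellTree.splitK 618 (CellTree.splitH 469 (CellTree.splitK 611 (CellTree.leaf false (172696) (69585) 8) (CellTree.leaf false (163925) (71363) 4)) (CellTree.leaf false (159705) (72900) 4)) (CellTree.splitH 469 (CellTree.leaf false (148577) (74473) 2) (CellTree.leaf false (144132) (76167) 8))) (CellTree.splitK 618 (CellTree.leaf false (155207) (74538) 2) (CellTree.leaf false (139406) (77967) 8)))) (CellTree.splitK 604 (CellTree.splitH 510 (CellTree.splitK 590 (CellTree.leaf false (191411) (67526) 16) (CellTree.leaf false (164919) (73691) 16))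 (CellTree.leaf false (153870) (77536) 16)) (CellTree.splitH 510 (CellTree.leaf false (128188) (82240) 16) (CellTree.leaf false (110029) (88410) 64)))) (CellTree.splitH 494 (CellTree.splitK 660 (CellTree.splitH 477 (CellTree.splitK 646 (CellTree.leaf false (135596) (77104) 4) (CellTree.leaf false (124125) (79429) 8)) (CellTree.leaf false (115168) (83226) 16)) (CellTree.leaf false (105889) (83125) 16)) (CellTree.leaf false (86865) (91857) 32)))) (CellTree.splitH 461 (CellTree.splitK 744 (CellTree.splitH 428 (CellTree.splitK 716 (CellTree.leaf false (121892) (71476) 2) (CellTree.leaf false (99782) (74765) 32)) (CellTree.leaf false (96178) (80297) 16)) (CellTree.leaf false (73780) (78634) 64)) (CellTree.leaf false (64961) (91420) 16)))) (CellTree.splitH 395 (CellTree.splitK 912 (CellTree.splitH 329 (CellTree.leaf false (63016) (55509) 64) (CellTree.leaf false (44718) (70023) 64)) (CellTree.leaf false (-63882) (63879) 64)) (CellTree.splitK 912 (CellTree.leaf false (24644) (85946) 64) (CellTree.leaf false (-105281) (105278) 64)))))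

theorem cellDataX_ok : checkTreeX cellDataX 0 527 577 1024 = true := by
  decide +kernel

end Vale.Agent.Lib.P232.Cells
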