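import Vale.Agent.Lib.P232.Main

/-!
# P232, stage 3: definitions for the reduction to coordinate-monotone sets

All sets are periodic objects on `ℝ³`; a coordinate-monotone set is a down-set for the tent coordinate
`uu x = |2 fract x - 1|` (`0` at the half-integers, `1` at the integers, `|{x ∈ [0,1) : uu x < b}| = b`).
-/

open MeasureTheory Set Filter Topology
open scoped ENNReal

noncomputable section

namespace Vale.Agent.Lib.P232

/-- The tent coordinate. -/
def uu (x : ℝ) : ℝ := |2 * Int.fract x - 1|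

/-- Down-sets for the tent coordinates, level two. -/
structure Mono2 (χ : ℝ → ℝ → ℝ) : Prop where
  ind : Ind2 χ
  mono : ∀ x y x' y', uu x' ≤ uu x → uu y' ≤ uu y → χ x y = 1 → χ x' y' = 1

/-- Down-sets for the tent coordinates, level three. -/
structure Mono3 (χ : ℝ → ℝ → ℝ → ℝ) : Prop where
  ind : Ind3 χ
  mono : ∀ x y t x' y' t', uu x' ≤ uu x → uu y' ≤ uu y → uu t' ≤ uu t → χ x y t = 1 → χ x' y' t' = 1

/-- The `x`-line at `(y, t)` is full. -/
def Gx (χ : ℝ → ℝ → ℝ → ℝ) (y t : ℝ) : Prop := ∫ x in (0 : ℝ)..1, χ x y t = 1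
/-- The `y`-line at `(x, t)` is full. -/
def Gy (χ : ℝ → ℝ → ℝ → ℝ) (x t : ℝ) : Prop := ∫ y in (0 : ℝ)..1, χ x y t = 1
/-- The `t`-line at `(x, y)` is full. -/
def Gt (χ : ℝ → ℝ → ℝ → ℝ) (x y : ℝ) : Prop := ∫ t in (0 : ℝ)..1, χ x y t = 1

/-- Extent of a down-set of the plane along the first coordinate (ignoring the null line `uu q = 0`). -/
def extA (G : ℝ → ℝ → Prop) : ℝ := sSup ({0} ∪ {b | ∃ p q, uu p = b ∧ 0 < uu q ∧ G p q})
/-- Extent of a down-set of the plane along the second coordinate (ignoring the null line `uu p = 0`). -/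
def extB (G : ℝ → ℝ → Prop) : ℝ := sSup ({0} ∪ {c | ∃ p q, uu q = c ∧ 0 < uu p ∧ G p q})

/-! Steiner symmetrization in `x`. -/

/-- Steiner symmetrization in the first coordinate: `{uu x < mass of the x-line}`. -/
def stX (E : Set R3) : Set R3 := {p | uu p.1 < ∫ x in (0 : ℝ)..1, ind E x p.2.1 p.2.2}

/-! The profiles (torus units). -/

/-- The thickness threshold. -/
def tstar : ℝ := 1 / 10
/-- The smallness threshold for full lines. -/
def ezero : ℝ := 1 / 1000

/-- The full target: ball, tube, slab. -/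
def Jf (V : ℝ) : ℝ := min (JJ V) 2

/-- Complement-of-a-disc profile, for slices with both families of full lines. -/
def IL (s : ℝ) : ℝ := 2 * Real.sqrt (Real.pi * (1 - s))

/-- `Θ(α) = ∫₀¹ √(1 - α² s²) ds`. -/
def Theta (α : ℝ) : ℝ := ∫ s in (0 : ℝ)..1, Real.sqrt (1 - (α * s) ^ 2)

/-- Rational lower bounds (five decimals) for `Θ(j/20)`, `j = 0, …, 20`. -/
def thetaTab : List ℚ :=
  [100000 / 100000, 99957 / 100000, 99832 / 100000, 99622 / 100000, 99328 / 100000, 98947 / 100000,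
   98478 / 100000, 97918 / 100000, 97264 / 100000, 96513 / 100000, 95660 / 100000, 94699 / 100000,
   93624 / 100000, 92425 / 100000, 91091 / 100000, 89608 / 100000, 87954 / 100000, 86101 / 100000,
   84002 / 100000, 81571 / 100000, 78538 / 100000]

/-- The value of the family at index `j`: `2 (j/20) A + 2 θ_j`. -/
def xline (j : ℕ) (A : ℝ) : ℝ := 2 * ((j : ℝ) / 20) * A + 2 * ((thetaTab.getD j 0 : ℚ) : ℝ)

/-- Lower envelope for slices with one family of full lines: `xhat (a - δ) ≤ perimeter`. -/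
def xhat (A : ℝ) : ℝ := (List.range 21).foldr (fun j acc => max (xline j A) acc) 2

/-- Stadium bound for the complement of a slice with both families, one of width `≥ d`, `d ≤ 9/10`. -/
def CL (s d : ℝ) : ℝ :=
  if 1 - d ≤ 2 * Real.sqrt ((1 - s) / Real.pi) then 2 * ((1 - s) / (1 - d) + Real.pi * (1 - d) / 4)
  else 2 * Real.sqrt (Real.pi * (1 - s))

/-- Slice profile when all lines have width `< tstar`. -/
def ICp (s : ℝ) : ℝ := min (IE s) (min (xhat (s - tstar)) (2 * Real.sqrt 2 * (1 - tstar)))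

/-- Slice profile in the hump case with parameter `d`. -/
def IH (d s : ℝ) : ℝ := min (CL s (min d (9 / 10))) (min (xhat (s - d)) (IE s))

/-- The weight `κ = q₊/I` times the gain `C - I`. -/
def gain (I C : ℝ → ℝ) (l b s : ℝ) : ℝ := max (l * s + b) 0 / I s * (C s - I s)

/-- A line for the torus profile alone. -/
def TLine (V m M : ℝ) : Prop := ∃ l b, LineAdm IT l b m M ∧ Jf V ≤ lineValue IT l b V m M

/-! The certificates: statements on `V ∈ [1/4, 37/100]`. -/

/-- Direction with a band of length `≥ T` with both families, `T ≤ m/M`, and `T ≤ tstar` if `m < tstar`;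
full lines not too small. -/
def CertBand : Prop := ∀ V m M : ℝ, 1 / 4 ≤ V → V ≤ 37 / 100 → ezero ≤ m → m ≤ V → V ≤ M → M ≤ 1 →
  TLine V m M ∨ ∃ l b T B : ℝ, 0 ≤ T ∧ T < 1 ∧ T * M ≤ m ∧ (m < tstar → T ≤ tstar) ∧
    LineAdm IT l b m M ∧ (∀ s ∈ Icc ((V - T * M) / (1 - T)) M, B ≤ gain IT IL l b s) ∧
    Jf V ≤ lineValue IT l b V m M + T * B

/-- Direction with a band of length `≥ tstar` and `m < ezero`, the hump. -/
def CertHump : Prop := ∀ V m M d : ℝ, 1 / 4 ≤ V → V ≤ 37 / 100 → 0 ≤ m → m < ezero → V ≤ M → M ≤ 1 →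
  0 ≤ d → d ≤ M →
  TLine V m M ∨ ∃ l b B : ℝ, LineAdm (IH d) l b 0 M ∧
    (∀ s ∈ Icc ((V - tstar * M) / (1 - tstar)) M,
      B ≤ gain (IH d) (fun s => CL s (min d (9 / 10))) l b s) ∧
    Jf V + 2 * ezero ≤ lineValue (IH d) l b V 0 M + tstar * B

/-- Thin direction: all lines in the slices have width `< tstar`. -/
def CertThin : Prop := ∀ V m M : ℝ, 1 / 4 ≤ V → V ≤ 37 / 100 → 0 ≤ m → m ≤ V → V ≤ M → M ≤ 1 →
  TLine V m M ∨ ∃ l b, LineAdm ICp l b m M ∧ Jf V ≤ lineValue ICp l b V m M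

/-- Cycle: one family has width `< tstar`, the other one exists on a band of length `< tstar`. -/
def CertCycle : Prop := ∀ V m M : ℝ, 1 / 4 ≤ V → V ≤ 37 / 100 → 0 ≤ m → m < tstar → V ≤ M → M ≤ 1 →
  TLine V m M ∨ ∃ l b B : ℝ, B ≤ 0 ∧ LineAdm ICp l b m M ∧ (∀ s ∈ Icc m M, B ≤ gain ICp IT l b s) ∧
    Jf V ≤ lineValue ICp l b V m M + tstar * B

/-- Slab range. -/
def CertSlab : Prop := ∀ V m M : ℝ, 37 / 100 ≤ V → V ≤ 1 / 2 → 0 ≤ m → m ≤ V → V ≤ M → M ≤ 1 →
  ∃ l b, LineAdm IT l b m M ∧ 2 ≤ lineValue IT l b V m M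

/-! The case distinction. -/

/-- The alternatives in a direction: `a1, a2` are the width and the range of the rows, `b1, b2` those
of the columns, `f` the area of the full lines in the direction, `M` the largest slice. -/
def Alt (a1 a2 b1 b2 f M : ℝ) : Prop :=
  (ezero ≤ f ∧ f / M ≤ a2 ∧ f / M ≤ b2) ∨
  (f < tstar ∧ tstar ≤ a2 ∧ tstar ≤ b2) ∨
  (a1 < tstar ∧ b1 < tstar) ∨
  (f < tstar ∧ ((a1 < tstar ∧ b2 < tstar) ∨ (b1 < tstar ∧ a2 < tstar)))

end Vale.Agent.Lib.P232
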