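import Vale.Agent.Lib.P232.SlabCells

namespace Vale.Agent.Lib.P232.Cells

set_option maxRecDepth 100000 in
/-- The certificate tree for the slab range. -/
def slabData : SlabTree :=
  (SlabTree.splitH 362 (SlabTree.splitK 819 (SlabTree.splitK 717 (SlabTree.splitH 181 (SlabTree.leaf (267344) (-2) 64) (SlabTree.splitK 666 (SlabTree.leaf (237811) (30473) 64) (SlabTree.splitV 441 (SlabTree.splitH 271 (SlabTree.leaf (197962) (34014) 64) (SlabTree.leaf (165595) (49882) 32)) (SlabTree.leaf (249432) (8780) 64)))) (SlabTree.splitH 181 (SlabTree.splitK 768 (SlabTree.leaf (233016) (-2) 64) (SlabTree.leaf (204900) (-2) 8)) (SlabTree.splitK 768 (SlabTree.splitV 441 (SlabTree.splitH 271 (SlabTree.leaf (169424) (35768) 64) (SlabTree.leaf (141308) (51583) 4)) (SlabTree.leaf (169424) (35768) 64)) (SlabTree.splitV 441 (SlabTree.splitH 271 (SlabTree.leaf (147931) (36440) 64) (SlabTree.leaf (122161) (52924) 16)) (SlabTree.leaf (147931) (36440) 64))))) (SlabTree.splitK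 921 (SlabTree.splitH 181 (SlabTree.splitK 870 (SlabTree.splitV 441 (SlabTree.splitK 844 (SlabTree.leaf (192941) (-2) 32) (SlabTree.leaf (169722) (-2) 16)) (SlabTree.leaf (169722) (-2) 64)) (SlabTree.splitV 441 (SlabTree.splitK 895 (SlabTree.leaf (147602) (-2) 4) (SlabTree.splitV 405 (SlabTree.splitH 90 (SlabTree.leaf (125364) (-2) 32) (SlabTree.leaf (101088) (19635) 64)) (SlabTree.leaf (125364) (-2) 64))) (SlabTree.leaf (125364) (-2) 64))) (SlabTree.splitK 870 (SlabTree.splitV 441 (SlabTree.splitH 271 (SlabTree.leaf (117938) (37377) 64) (SlabTree.leaf (93632) (54923) 64)) (SlabTree.leaf (117938) (37377) 64)) (SlabTree.splitV 441 (SlabTree.splitH 271 (SlabTree.leaf (77598) (38637) 64) (SlabTree.leaf (54039) (57696) 64)) (SlabTree.leaf (77598) (38637) 64)))) (SlabTree.splitH 181 (SlabTree.splitK 972 (SlabTree.splitV 441 (SlabTree.splitK 946 (SlabTree.splitV 405 (SlabTree.splitH 90 (SlabTree.leaf (103939) (-2) 32) (SlabTree.leaf (80745) (19792)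 64)) (SlabTree.leaf (103939) (-2) 64)) (SlabTree.splitV 405 (SlabTree.splitH 90 (SlabTree.leaf (81078) (-2) 32) (SlabTree.leaf (58922) (19961) 64)) (SlabTree.leaf (81078) (-2) 32))) (SlabTree.leaf (81078) (-2) 16)) (SlabTree.splitV 441 (SlabTree.splitK 998 (SlabTree.splitV 405 (SlabTree.splitH 90 (SlabTree.leaf (54696) (-2) 32) (SlabTree.leaf (33472) (20158) 64)) (SlabTree.leaf (54696) (-2) 8)) (SlabTree.splitV 405 (SlabTree.splitH 90 (SlabTree.splitK 1011 (SlabTree.leaf (37704) (-2) 64) (SlabTree.splitV 387 (SlabTree.splitK 1017 (SlabTree.leaf (27370) (-2) 64) (SlabTree.splitV 378 (SlabTree.splitH 45 (SlabTree.splitK 1020 (SlabTree.leaf (20579) (-2) 64) (SlabTree.splitV 374 (SlabTree.splitK 1022 (SlabTree.leaf (14349) (-2) 64) (SlabTree.splitV 372 (SlabTree.splitK 1023 (SlabTree.leaf (10229) (-2) 64) (SlabTree.splitH 22 (SlabTree.splitV 371 (SlabTree.splitH 11 (SlabTree.splitH 5 (SlabTree.splitH 2 SlabTree.corner (SlabTree.leaf (-454) (451)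 32)) (SlabTree.leaf (-1135) (1132) 64)) (SlabTree.leaf (-2496) (2493) 64)) (SlabTree.splitH 11 (SlabTree.splitH 5 (SlabTree.splitH 2 SlabTree.corner (SlabTree.leaf (-454) (451) 32)) (SlabTree.leaf (-1135) (1132) 64)) (SlabTree.leaf (-2496) (2493) 64))) (SlabTree.leaf (-4994) (4991) 64))) (SlabTree.splitK 1023 (SlabTree.leaf (10229) (-2) 64) (SlabTree.splitH 22 (SlabTree.splitV 373 (SlabTree.splitH 11 (SlabTree.splitH 5 (SlabTree.splitH 2 SlabTree.corner (SlabTree.leaf (-454) (451) 32)) (SlabTree.leaf (-1135) (1132) 64)) (SlabTree.leaf (-2496) (2493) 64)) (SlabTree.splitH 11 (SlabTree.splitH 5 (SlabTree.splitH 2 SlabTree.corner (SlabTree.leaf (-454) (451) 32)) (SlabTree.leaf (-1135) (1132) 64)) (SlabTree.leaf (-2496) (2493) 64))) (SlabTree.leaf (-4994) (4991) 64))))) (SlabTree.splitK 1022 (SlabTree.leaf (14349) (-2) 64) (SlabTree.splitV 376 (SlabTree.splitK 1023 (SlabTree.leaf (10229) (-2) 64) (SlabTree.splitH 22 (SlabTree.splitV 375 (SlabTree.splitH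 11 (SlabTree.splitH 5 (SlabTree.splitH 2 SlabTree.corner (SlabTree.leaf (-454) (451) 32)) (SlabTree.leaf (-1135) (1132) 64)) (SlabTree.leaf (-2496) (2493) 64)) (SlabTree.splitH 11 (SlabTree.splitH 5 (SlabTree.splitH 2 SlabTree.corner (SlabTree.leaf (-454) (451) 32)) (SlabTree.leaf (-1135) (1132) 64)) (SlabTree.leaf (-2496) (2493) 64))) (SlabTree.leaf (-4994) (4991) 64))) (SlabTree.splitK 1023 (SlabTree.leaf (10229) (-2) 64) (SlabTree.splitH 22 (SlabTree.splitV 377 (SlabTree.splitH 11 (SlabTree.splitH 5 (SlabTree.splitH 2 SlabTree.corner (SlabTree.leaf (-454) (451) 32)) (SlabTree.leaf (-1135) (1132) 64)) (SlabTree.leaf (-2496) (2493) 64)) (SlabTree.splitH 11 (SlabTree.splitH 5 (SlabTree.splitH 2 SlabTree.corner (SlabTree.leaf (-454) (451) 32)) (SlabTree.leaf (-1135) (1132) 64)) (SlabTree.leaf (-2496) (2493) 64))) (SlabTree.leaf (-4994) (4991) 64))))))) (SlabTree.leaf (-10230) (10227) 64)) (SlabTree.splitH 45 (SlabTree.splitK 1020 (SlabTree.leaf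 (20579) (-2) 64) (SlabTree.splitV 382 (SlabTree.splitK 1022 (SlabTree.leaf (14349) (-2) 64) (SlabTree.splitV 380 (SlabTree.splitK 1023 (SlabTree.leaf (10229) (-2) 64) (SlabTree.splitH 22 (SlabTree.splitV 379 (SlabTree.splitH 11 (SlabTree.splitH 5 (SlabTree.splitH 2 SlabTree.corner (SlabTree.leaf (-454) (451) 32)) (SlabTree.leaf (-1135) (1132) 64)) (SlabTree.leaf (-2496) (2493) 64)) (SlabTree.splitH 11 (SlabTree.splitH 5 (SlabTree.splitH 2 SlabTree.corner (SlabTree.leaf (-454) (451) 32)) (SlabTree.leaf (-1135) (1132) 64)) (SlabTree.leaf (-2496) (2493) 64))) (SlabTree.leaf (-4994) (4991) 64))) (SlabTree.splitK 1023 (SlabTree.leaf (10229) (-2) 64) (SlabTree.splitH 22 (SlabTree.splitV 381 (SlabTree.splitH 11 (SlabTree.splitH 5 (SlabTree.splitH 2 SlabTree.corner (SlabTree.leaf (-454) (451) 32)) (SlabTree.leaf (-1135) (1132) 64)) (SlabTree.leaf (-2496) (2493) 64)) (SlabTree.splitH 11 (SlabTree.splitH 5 (SlabTree.splitH 2 SlabTree.corner (SlabTree.leaf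 (-454) (451) 16)) (SlabTree.leaf (-1135) (1132) 64)) (SlabTree.leaf (-2496) (2493) 64))) (SlabTree.leaf (-4994) (4991) 64))))) (SlabTree.splitK 1022 (SlabTree.leaf (14349) (-2) 64) (SlabTree.splitV 384 (SlabTree.splitK 1023 (SlabTree.leaf (10229) (-2) 64) (SlabTree.splitH 22 (SlabTree.splitV 383 (SlabTree.splitH 11 (SlabTree.splitH 5 (SlabTree.splitH 2 SlabTree.corner (SlabTree.leaf (-454) (451) 16)) (SlabTree.leaf (-1135) (1132) 64)) (SlabTree.leaf (-2496) (2493) 64)) (SlabTree.splitH 11 (SlabTree.splitH 5 (SlabTree.splitH 2 SlabTree.corner (SlabTree.leaf (-454) (451) 16)) (SlabTree.leaf (-1135) (1132) 64)) (SlabTree.leaf (-2496) (2493) 64))) (SlabTree.leaf (-4994) (4991) 64))) (SlabTree.splitK 1023 (SlabTree.leaf (10229) (-2) 64) (SlabTree.splitH 22 (SlabTree.splitV 385 (SlabTree.splitH 11 (SlabTree.splitH 5 (SlabTree.splitH 2 SlabTree.corner (SlabTree.leaf (-454) (451) 16)) (SlabTree.leaf (-1135) (1132) 64)) (SlabTree.leaf (-2496) (2493)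 64)) (SlabTree.splitV 386 (SlabTree.splitH 11 (SlabTree.splitH 5 (SlabTree.splitH 2 SlabTree.corner (SlabTree.leaf (-454) (451) 16)) (SlabTree.leaf (-1135) (1132) 64)) (SlabTree.leaf (-2496) (2493) 64)) (SlabTree.splitH 11 (SlabTree.splitH 5 (SlabTree.splitH 2 SlabTree.corner (SlabTree.leaf (-454) (451) 16)) (SlabTree.leaf (-1135) (1132) 64)) (SlabTree.leaf (-2496) (2493) 64)))) (SlabTree.leaf (-4994) (4991) 64))))))) (SlabTree.leaf (-10230) (10227) 64)))) (SlabTree.splitK 1017 (SlabTree.leaf (27370) (-2) 64) (SlabTree.splitV 396 (SlabTree.splitH 45 (SlabTree.splitK 1020 (SlabTree.leaf (20579) (-2) 64) (SlabTree.splitV 391 (SlabTree.splitK 1022 (SlabTree.leaf (14349) (-2) 64) (SlabTree.splitV 389 (SlabTree.splitK 1023 (SlabTree.leaf (10229) (-2) 64) (SlabTree.splitH 22 (SlabTree.splitV 388 (SlabTree.splitH 11 (SlabTree.splitH 5 (SlabTree.splitH 2 SlabTree.corner (SlabTree.leaf (-454) (451) 16)) (SlabTree.leaf (-1135) (1132) 64)) (SlabTree.leaf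 (-2496) (2493) 64)) (SlabTree.splitH 11 (SlabTree.splitH 5 (SlabTree.splitH 2 SlabTree.corner (SlabTree.leaf (-454) (451) 16)) (SlabTree.leaf (-1135) (1132) 64)) (SlabTree.leaf (-2496) (2493) 64))) (SlabTree.leaf (-4994) (4991) 64))) (SlabTree.splitK 1023 (SlabTree.leaf (10229) (-2) 64) (SlabTree.splitH 22 (SlabTree.splitV 390 (SlabTree.splitH 11 (SlabTree.splitH 5 (SlabTree.splitH 2 SlabTree.corner (SlabTree.leaf (-454) (451) 16)) (SlabTree.leaf (-1135) (1132) 64)) (SlabTree.leaf (-2496) (2493) 64)) (SlabTree.splitH 11 (SlabTree.splitH 5 (SlabTree.splitH 2 SlabTree.corner (SlabTree.leaf (-454) (451) 16)) (SlabTree.leaf (-1135) (1132) 64)) (SlabTree.leaf (-2496) (2493) 64))) (SlabTree.leaf (-4994) (4991) 64))))) (SlabTree.splitK 1022 (SlabTree.leaf (14349) (-2) 64) (SlabTree.splitV 393 (SlabTree.splitK 1023 (SlabTree.leaf (10229) (-2) 64) (SlabTree.splitH 22 (SlabTree.splitV 392 (SlabTree.splitH 11 (SlabTree.splitH 5 (SlabTree.splitH 2 SlabTree.corner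 (SlabTree.leaf (-454) (451) 16)) (SlabTree.leaf (-1135) (1132) 64)) (SlabTree.leaf (-2496) (2493) 64)) (SlabTree.splitH 11 (SlabTree.splitH 5 (SlabTree.splitH 2 SlabTree.corner (SlabTree.leaf (-454) (451) 16)) (SlabTree.leaf (-1135) (1132) 64)) (SlabTree.leaf (-2496) (2493) 64))) (SlabTree.leaf (-4994) (4991) 64))) (SlabTree.splitK 1023 (SlabTree.leaf (10229) (-2) 64) (SlabTree.splitH 22 (SlabTree.splitV 394 (SlabTree.splitH 11 (SlabTree.splitH 5 (SlabTree.splitH 2 SlabTree.corner (SlabTree.leaf (-454) (451) 16)) (SlabTree.leaf (-1135) (1132) 64)) (SlabTree.leaf (-2496) (2493) 64)) (SlabTree.splitV 395 (SlabTree.splitH 11 (SlabTree.splitH 5 (SlabTree.splitH 2 SlabTree.corner (SlabTree.leaf (-454) (451) 16)) (SlabTree.leaf (-1135) (1132) 64)) (SlabTree.leaf (-2496) (2493) 64)) (SlabTree.splitH 11 (SlabTree.splitH 5 (SlabTree.splitH 2 SlabTree.corner (SlabTree.leaf (-454) (451) 16)) (SlabTree.leaf (-1135) (1132) 64)) (SlabTree.leaf (-2496) (2493)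 64)))) (SlabTree.leaf (-4994) (4991) 64))))))) (SlabTree.leaf (-10230) (10227) 64)) (SlabTree.splitH 45 (SlabTree.splitK 1020 (SlabTree.leaf (20579) (-2) 64) (SlabTree.splitV 400 (SlabTree.splitK 1022 (SlabTree.leaf (14349) (-2) 64) (SlabTree.splitV 398 (SlabTree.splitK 1023 (SlabTree.leaf (10229) (-2) 64) (SlabTree.splitH 22 (SlabTree.splitV 397 (SlabTree.splitH 11 (SlabTree.splitH 5 (SlabTree.splitH 2 SlabTree.corner (SlabTree.leaf (-454) (451) 16)) (SlabTree.leaf (-1135) (1132) 64)) (SlabTree.leaf (-2496) (2493) 64)) (SlabTree.splitH 11 (SlabTree.splitH 5 (SlabTree.splitH 2 SlabTree.corner (SlabTree.leaf (-454) (451) 16)) (SlabTree.leaf (-1135) (1132) 64)) (SlabTree.leaf (-2496) (2493) 64))) (SlabTree.leaf (-4994) (4991) 64))) (SlabTree.splitK 1023 (SlabTree.leaf (10229) (-2) 64) (SlabTree.splitH 22 (SlabTree.splitV 399 (SlabTree.splitH 11 (SlabTree.splitH 5 (SlabTree.splitH 2 SlabTree.corner (SlabTree.leaf (-454) (451) 16)) (SlabTree.leaf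 (-1135) (1132) 64)) (SlabTree.leaf (-2496) (2493) 64)) (SlabTree.splitH 11 (SlabTree.splitH 5 (SlabTree.splitH 2 SlabTree.corner (SlabTree.leaf (-454) (451) 16)) (SlabTree.leaf (-1135) (1132) 64)) (SlabTree.leaf (-2496) (2493) 64))) (SlabTree.leaf (-4994) (4991) 64))))) (SlabTree.splitK 1022 (SlabTree.leaf (14349) (-2) 64) (SlabTree.splitV 402 (SlabTree.splitK 1023 (SlabTree.leaf (10229) (-2) 64) (SlabTree.splitH 22 (SlabTree.splitV 401 (SlabTree.splitH 11 (SlabTree.splitH 5 (SlabTree.splitH 2 SlabTree.corner (SlabTree.leaf (-454) (451) 16)) (SlabTree.leaf (-1135) (1132) 64)) (SlabTree.leaf (-2496) (2493) 64)) (SlabTree.splitH 11 (SlabTree.splitH 5 (SlabTree.splitH 2 SlabTree.corner (SlabTree.leaf (-454) (451) 16)) (SlabTree.leaf (-1135) (1132) 64)) (SlabTree.leaf (-2496) (2493) 64))) (SlabTree.leaf (-4994) (4991) 64))) (SlabTree.splitK 1023 (SlabTree.leaf (10229) (-2) 64) (SlabTree.splitH 22 (SlabTree.splitV 403 (SlabTree.splitH 11 (SlabTree.splitH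 5 (SlabTree.splitH 2 SlabTree.corner (SlabTree.leaf (-454) (451) 8)) (SlabTree.leaf (-1135) (1132) 64)) (SlabTree.leaf (-2496) (2493) 64)) (SlabTree.splitV 404 (SlabTree.splitH 11 (SlabTree.splitH 5 (SlabTree.splitH 2 SlabTree.corner (SlabTree.leaf (-454) (451) 8)) (SlabTree.leaf (-1135) (1132) 64)) (SlabTree.leaf (-2496) (2493) 64)) (SlabTree.splitH 11 (SlabTree.splitH 5 (SlabTree.splitH 2 SlabTree.corner (SlabTree.leaf (-454) (451) 8)) (SlabTree.leaf (-1135) (1132) 64)) (SlabTree.leaf (-2496) (2493) 64)))) (SlabTree.leaf (-4994) (4991) 64))))))) (SlabTree.leaf (-10230) (10227) 64)))))) (SlabTree.leaf (-20578) (20575) 64)) (SlabTree.splitH 90 (SlabTree.splitK 1011 (SlabTree.leaf (37704) (-2) 64) (SlabTree.splitV 423 (SlabTree.splitK 1017 (SlabTree.leaf (27370) (-2) 64) (SlabTree.splitV 414 (SlabTree.splitH 45 (SlabTree.splitK 1020 (SlabTree.leaf (20579) (-2) 64) (SlabTree.splitV 409 (SlabTree.splitK 1022 (SlabTree.leaf (14349) (-2) 64) (SlabTree.splitV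 407 (SlabTree.splitK 1023 (SlabTree.leaf (10229) (-2) 64) (SlabTree.splitH 22 (SlabTree.splitV 406 (SlabTree.splitH 11 (SlabTree.splitH 5 (SlabTree.splitH 2 SlabTree.corner (SlabTree.leaf (-454) (451) 8)) (SlabTree.leaf (-1135) (1132) 64)) (SlabTree.leaf (-2496) (2493) 64)) (SlabTree.splitH 11 (SlabTree.splitH 5 (SlabTree.splitH 2 SlabTree.corner (SlabTree.leaf (-454) (451) 8)) (SlabTree.leaf (-1135) (1132) 64)) (SlabTree.leaf (-2496) (2493) 64))) (SlabTree.leaf (-4994) (4991) 64))) (SlabTree.splitK 1023 (SlabTree.leaf (10229) (-2) 64) (SlabTree.splitH 22 (SlabTree.splitV 408 (SlabTree.splitH 11 (SlabTree.splitH 5 (SlabTree.splitH 2 SlabTree.corner (SlabTree.leaf (-454) (451) 8)) (SlabTree.leaf (-1135) (1132) 64)) (SlabTree.leaf (-2496) (2493) 64)) (SlabTree.splitH 11 (SlabTree.splitH 5 (SlabTree.splitH 2 SlabTree.corner (SlabTree.leaf (-454) (451) 4)) (SlabTree.leaf (-1135) (1132) 64)) (SlabTree.leaf (-2496) (2493) 64))) (SlabTree.leaf (-4994)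 (4991) 64))))) (SlabTree.splitK 1022 (SlabTree.leaf (14349) (-2) 64) (SlabTree.splitV 411 (SlabTree.splitK 1023 (SlabTree.leaf (10229) (-2) 64) (SlabTree.splitH 22 (SlabTree.splitV 410 (SlabTree.splitH 11 (SlabTree.splitH 5 (SlabTree.splitH 2 SlabTree.corner (SlabTree.leaf (-454) (451) 4)) (SlabTree.leaf (-1135) (1132) 64)) (SlabTree.leaf (-2496) (2493) 64)) (SlabTree.splitH 11 (SlabTree.splitH 5 (SlabTree.splitH 2 SlabTree.corner (SlabTree.leaf (-454) (451) 1)) (SlabTree.leaf (-1135) (1132) 64)) (SlabTree.leaf (-2496) (2493) 64))) (SlabTree.leaf (-4994) (4991) 64))) (SlabTree.splitK 1023 (SlabTree.leaf (10229) (-2) 64) (SlabTree.splitH 22 (SlabTree.splitV 412 (SlabTree.splitH 11 (SlabTree.splitH 5 (SlabTree.splitH 2 SlabTree.corner (SlabTree.splitH 3 SlabTree.corner (SlabTree.leaf (-681) (678) 64))) (SlabTree.leaf (-1135) (1132) 64)) (SlabTree.leaf (-2496) (2493) 64)) (SlabTree.splitV 413 (SlabTree.splitH 11 (SlabTree.splitH 5 (SlabTree.splitH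 2 SlabTree.corner (SlabTree.splitH 3 SlabTree.corner (SlabTree.leaf (-681) (678) 64))) (SlabTree.leaf (-1135) (1132) 64)) (SlabTree.leaf (-2496) (2493) 64)) (SlabTree.splitH 11 (SlabTree.splitH 5 (SlabTree.splitH 2 SlabTree.corner (SlabTree.splitH 3 SlabTree.corner (SlabTree.leaf (-681) (678) 64))) (SlabTree.leaf (-1135) (1132) 64)) (SlabTree.leaf (-2496) (2493) 64)))) (SlabTree.leaf (-4994) (4991) 64))))))) (SlabTree.leaf (-10230) (10227) 64)) (SlabTree.splitH 45 (SlabTree.splitK 1020 (SlabTree.leaf (20579) (-2) 64) (SlabTree.splitV 418 (SlabTree.splitK 1022 (SlabTree.leaf (14349) (-2) 64) (SlabTree.splitV 416 (SlabTree.splitK 1023 (SlabTree.leaf (10229) (-2) 64) (SlabTree.splitH 22 (SlabTree.splitV 415 (SlabTree.splitH 11 (SlabTree.splitH 5 (SlabTree.splitH 2 SlabTree.corner (SlabTree.splitH 3 SlabTree.corner (SlabTree.leaf (-681) (678) 64))) (SlabTree.leaf (-1135) (1132) 64)) (SlabTree.leaf (-2496) (2493) 64)) (SlabTree.splitH 11 (SlabTree.splitH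 5 (SlabTree.splitH 2 SlabTree.corner (SlabTree.splitH 3 SlabTree.corner (SlabTree.leaf (-681) (678) 64))) (SlabTree.leaf (-1135) (1132) 64)) (SlabTree.leaf (-2496) (2493) 64))) (SlabTree.leaf (-4994) (4991) 64))) (SlabTree.splitK 1023 (SlabTree.leaf (10229) (-2) 64) (SlabTree.splitH 22 (SlabTree.splitV 417 (SlabTree.splitH 11 (SlabTree.splitH 5 (SlabTree.splitH 2 SlabTree.corner (SlabTree.splitH 3 SlabTree.corner (SlabTree.leaf (-681) (678) 64))) (SlabTree.leaf (-1135) (1132) 64)) (SlabTree.leaf (-2496) (2493) 64)) (SlabTree.splitH 11 (SlabTree.splitH 5 (SlabTree.splitH 2 SlabTree.corner (SlabTree.splitH 3 SlabTree.corner (SlabTree.leaf (-681) (678) 64))) (SlabTree.leaf (-1135) (1132) 64)) (SlabTree.leaf (-2496) (2493) 64))) (SlabTree.leaf (-4994) (4991) 64))))) (SlabTree.splitK 1022 (SlabTree.leaf (14349) (-2) 64) (SlabTree.splitV 420 (SlabTree.splitK 1023 (SlabTree.leaf (10229) (-2) 64) (SlabTree.splitH 22 (SlabTree.splitV 419 (SlabTree.splitH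 11 (SlabTree.splitH 5 (SlabTree.splitH 2 SlabTree.corner (SlabTree.splitH 3 SlabTree.corner (SlabTree.leaf (-681) (678) 64))) (SlabTree.leaf (-1135) (1132) 64)) (SlabTree.leaf (-2496) (2493) 64)) (SlabTree.splitH 11 (SlabTree.splitH 5 (SlabTree.splitH 2 SlabTree.corner (SlabTree.splitH 3 SlabTree.corner (SlabTree.leaf (-681) (678) 64))) (SlabTree.leaf (-1135) (1132) 64)) (SlabTree.leaf (-2496) (2493) 64))) (SlabTree.leaf (-4994) (4991) 64))) (SlabTree.splitK 1023 (SlabTree.leaf (10229) (-2) 64) (SlabTree.splitH 22 (SlabTree.splitV 421 (SlabTree.splitH 11 (SlabTree.splitH 5 (SlabTree.splitH 2 SlabTree.corner (SlabTree.splitH 3 SlabTree.corner (SlabTree.leaf (-681) (678) 64))) (SlabTree.leaf (-1135) (1132) 64)) (SlabTree.leaf (-2496) (2493) 64)) (SlabTree.splitV 422 (SlabTree.splitH 11 (SlabTree.splitH 5 (SlabTree.splitH 2 SlabTree.corner (SlabTree.splitH 3 SlabTree.corner (SlabTree.leaf (-681) (678) 64))) (SlabTree.leaf (-1135) (1132) 64)) (SlabTree.leaf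 (-2496) (2493) 64)) (SlabTree.splitH 11 (SlabTree.splitH 5 (SlabTree.splitH 2 SlabTree.corner (SlabTree.splitH 3 SlabTree.corner (SlabTree.leaf (-681) (678) 64))) (SlabTree.leaf (-1135) (1132) 64)) (SlabTree.leaf (-2496) (2493) 64)))) (SlabTree.leaf (-4994) (4991) 64))))))) (SlabTree.leaf (-10230) (10227) 64)))) (SlabTree.splitK 1017 (SlabTree.leaf (27370) (-2) 64) (SlabTree.splitV 432 (SlabTree.splitH 45 (SlabTree.splitK 1020 (SlabTree.leaf (20579) (-2) 64) (SlabTree.splitV 427 (SlabTree.splitK 1022 (SlabTree.leaf (14349) (-2) 64) (SlabTree.splitV 425 (SlabTree.splitK 1023 (SlabTree.leaf (10229) (-2) 64) (SlabTree.splitH 22 (SlabTree.splitV 424 (SlabTree.splitH 11 (SlabTree.splitH 5 (SlabTree.splitH 2 SlabTree.corner (SlabTree.splitH 3 SlabTree.corner (SlabTree.leaf (-681) (678) 64))) (SlabTree.leaf (-1135) (1132) 64)) (SlabTree.leaf (-2496) (2493) 64)) (SlabTree.splitH 11 (SlabTree.splitH 5 (SlabTree.splitH 2 SlabTree.corner (SlabTree.splitH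 3 SlabTree.corner (SlabTree.leaf (-681) (678) 64))) (SlabTree.leaf (-1135) (1132) 64)) (SlabTree.leaf (-2496) (2493) 64))) (SlabTree.leaf (-4994) (4991) 64))) (SlabTree.splitK 1023 (SlabTree.leaf (10229) (-2) 64) (SlabTree.splitH 22 (SlabTree.splitV 426 (SlabTree.splitH 11 (SlabTree.splitH 5 (SlabTree.splitH 2 SlabTree.corner (SlabTree.splitH 3 SlabTree.corner (SlabTree.leaf (-681) (678) 64))) (SlabTree.leaf (-1135) (1132) 64)) (SlabTree.leaf (-2496) (2493) 64)) (SlabTree.splitH 11 (SlabTree.splitH 5 (SlabTree.splitH 2 SlabTree.corner (SlabTree.splitH 3 SlabTree.corner (SlabTree.leaf (-681) (678) 64))) (SlabTree.leaf (-1135) (1132) 64)) (SlabTree.leaf (-2496) (2493) 64))) (SlabTree.leaf (-4994) (4991) 64))))) (SlabTree.splitK 1022 (SlabTree.leaf (14349) (-2) 64) (SlabTree.splitV 429 (SlabTree.splitK 1023 (SlabTree.leaf (10229) (-2) 64) (SlabTree.splitH 22 (SlabTree.splitV 428 (SlabTree.splitH 11 (SlabTree.splitH 5 (SlabTree.splitH 2 SlabTree.corner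 (SlabTree.splitH 3 SlabTree.corner (SlabTree.leaf (-681) (678) 64))) (SlabTree.leaf (-1135) (1132) 64)) (SlabTree.leaf (-2496) (2493) 64)) (SlabTree.splitH 11 (SlabTree.splitH 5 (SlabTree.splitH 2 SlabTree.corner (SlabTree.splitH 3 SlabTree.corner (SlabTree.leaf (-681) (678) 64))) (SlabTree.leaf (-1135) (1132) 64)) (SlabTree.leaf (-2496) (2493) 64))) (SlabTree.leaf (-4994) (4991) 64))) (SlabTree.splitK 1023 (SlabTree.leaf (10229) (-2) 64) (SlabTree.splitH 22 (SlabTree.splitV 430 (SlabTree.splitH 11 (SlabTree.splitH 5 (SlabTree.splitH 2 SlabTree.corner (SlabTree.splitH 3 SlabTree.corner (SlabTree.leaf (-681) (678) 64))) (SlabTree.leaf (-1135) (1132) 64)) (SlabTree.leaf (-2496) (2493) 64)) (SlabTree.splitV 431 (SlabTree.splitH 11 (SlabTree.splitH 5 (SlabTree.splitH 2 SlabTree.corner (SlabTree.splitH 3 SlabTree.corner (SlabTree.leaf (-681) (678) 64))) (SlabTree.leaf (-1135) (1132) 64)) (SlabTree.leaf (-2496) (2493) 64)) (SlabTree.splitH 11 (SlabTree.splitH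 5 (SlabTree.splitH 2 SlabTree.corner (SlabTree.splitH 3 SlabTree.corner (SlabTree.leaf (-681) (678) 64))) (SlabTree.leaf (-1135) (1132) 64)) (SlabTree.leaf (-2496) (2493) 64)))) (SlabTree.leaf (-4994) (4991) 64))))))) (SlabTree.leaf (-10230) (10227) 64)) (SlabTree.splitH 45 (SlabTree.splitK 1020 (SlabTree.leaf (20579) (-2) 64) (SlabTree.splitV 436 (SlabTree.splitK 1022 (SlabTree.leaf (14349) (-2) 64) (SlabTree.splitV 434 (SlabTree.splitK 1023 (SlabTree.leaf (10229) (-2) 64) (SlabTree.splitH 22 (SlabTree.splitV 433 (SlabTree.splitH 11 (SlabTree.splitH 5 (SlabTree.splitH 2 SlabTree.corner (SlabTree.splitH 3 SlabTree.corner (SlabTree.leaf (-681) (678) 64))) (SlabTree.leaf (-1135) (1132) 64)) (SlabTree.leaf (-2496) (2493) 64)) (SlabTree.splitH 11 (SlabTree.splitH 5 (SlabTree.splitH 2 SlabTree.corner (SlabTree.splitH 3 SlabTree.corner (SlabTree.leaf (-681) (678) 64))) (SlabTree.leaf (-1135) (1132) 64)) (SlabTree.leaf (-2496) (2493) 64))) (SlabTree.leaf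 (-4994) (4991) 64))) (SlabTree.splitK 1023 (SlabTree.leaf (10229) (-2) 64) (SlabTree.splitH 22 (SlabTree.splitV 435 (SlabTree.splitH 11 (SlabTree.splitH 5 (SlabTree.splitH 2 SlabTree.corner (SlabTree.splitH 3 SlabTree.corner (SlabTree.leaf (-681) (678) 64))) (SlabTree.leaf (-1135) (1132) 64)) (SlabTree.leaf (-2496) (2493) 64)) (SlabTree.splitH 11 (SlabTree.splitH 5 (SlabTree.splitH 2 SlabTree.corner (SlabTree.splitH 3 SlabTree.corner (SlabTree.leaf (-681) (678) 64))) (SlabTree.leaf (-1135) (1132) 64)) (SlabTree.leaf (-2496) (2493) 64))) (SlabTree.leaf (-4994) (4991) 64))))) (SlabTree.splitK 1022 (SlabTree.leaf (14349) (-2) 64) (SlabTree.splitV 438 (SlabTree.splitK 1023 (SlabTree.leaf (10229) (-2) 64) (SlabTree.splitH 22 (SlabTree.splitV 437 (SlabTree.splitH 11 (SlabTree.splitH 5 (SlabTree.splitH 2 SlabTree.corner (SlabTree.splitH 3 SlabTree.corner (SlabTree.leaf (-681) (678) 64))) (SlabTree.leaf (-1135) (1132) 64)) (SlabTree.leaf (-2496) (2493)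 64)) (SlabTree.splitH 11 (SlabTree.splitH 5 (SlabTree.splitH 2 SlabTree.corner (SlabTree.splitH 3 SlabTree.corner (SlabTree.leaf (-681) (678) 64))) (SlabTree.leaf (-1135) (1132) 64)) (SlabTree.leaf (-2496) (2493) 64))) (SlabTree.leaf (-4994) (4991) 64))) (SlabTree.splitK 1023 (SlabTree.leaf (10229) (-2) 64) (SlabTree.splitH 22 (SlabTree.splitV 439 (SlabTree.splitH 11 (SlabTree.splitH 5 (SlabTree.splitH 2 SlabTree.corner (SlabTree.splitH 3 SlabTree.corner (SlabTree.leaf (-681) (678) 32))) (SlabTree.leaf (-1135) (1132) 64)) (SlabTree.leaf (-2496) (2493) 64)) (SlabTree.splitV 440 (SlabTree.splitH 11 (SlabTree.splitH 5 (SlabTree.splitH 2 SlabTree.corner (SlabTree.splitH 3 SlabTree.corner (SlabTree.leaf (-681) (678) 32))) (SlabTree.leaf (-1135) (1132) 64)) (SlabTree.leaf (-2496) (2493) 64)) (SlabTree.splitH 11 (SlabTree.splitH 5 (SlabTree.splitH 2 SlabTree.corner (SlabTree.splitH 3 SlabTree.corner (SlabTree.leaf (-681) (678) 32))) (SlabTree.leaf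 (-1135) (1132) 64)) (SlabTree.leaf (-2496) (2493) 64)))) (SlabTree.leaf (-4994) (4991) 64))))))) (SlabTree.leaf (-10230) (10227) 64)))))) (SlabTree.splitK 1011 (SlabTree.leaf (16891) (20286) 64) (SlabTree.leaf (-20578) (20575) 64))))) (SlabTree.splitK 998 (SlabTree.leaf (54696) (-2) 64) (SlabTree.splitV 476 (SlabTree.splitH 90 (SlabTree.splitK 1011 (SlabTree.leaf (37704) (-2) 64) (SlabTree.splitV 458 (SlabTree.splitK 1017 (SlabTree.leaf (27370) (-2) 64) (SlabTree.splitV 449 (SlabTree.splitH 45 (SlabTree.splitK 1020 (SlabTree.leaf (20579) (-2) 64) (SlabTree.splitV 445 (SlabTree.splitK 1022 (SlabTree.leaf (14349) (-2) 64) (SlabTree.splitV 443 (SlabTree.splitK 1023 (SlabTree.leaf (10229) (-2) 64) (SlabTree.splitH 22 (SlabTree.splitV 442 (SlabTree.splitH 11 (SlabTree.splitH 5 (SlabTree.splitH 2 SlabTree.corner (SlabTree.splitH 3 SlabTree.corner (SlabTree.leaf (-681) (678) 32))) (SlabTree.leaf (-1135) (1132) 64)) (SlabTree.leaf (-2496) (2493) 64))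 (SlabTree.splitH 11 (SlabTree.splitH 5 (SlabTree.splitH 2 SlabTree.corner (SlabTree.splitH 3 SlabTree.corner (SlabTree.leaf (-681) (678) 32))) (SlabTree.leaf (-1135) (1132) 64)) (SlabTree.leaf (-2496) (2493) 64))) (SlabTree.leaf (-4994) (4991) 64))) (SlabTree.splitK 1023 (SlabTree.leaf (10229) (-2) 64) (SlabTree.splitH 22 (SlabTree.splitV 444 (SlabTree.splitH 11 (SlabTree.splitH 5 (SlabTree.splitH 2 SlabTree.corner (SlabTree.splitH 3 SlabTree.corner (SlabTree.leaf (-681) (678) 32))) (SlabTree.leaf (-1135) (1132) 64)) (SlabTree.leaf (-2496) (2493) 64)) (SlabTree.splitH 11 (SlabTree.splitH 5 (SlabTree.splitH 2 SlabTree.corner (SlabTree.splitH 3 SlabTree.corner (SlabTree.leaf (-681) (678) 32))) (SlabTree.leaf (-1135) (1132) 64)) (SlabTree.leaf (-2496) (2493) 64))) (SlabTree.leaf (-4994) (4991) 64))))) (SlabTree.splitK 1022 (SlabTree.leaf (14349) (-2) 64) (SlabTree.splitV 447 (SlabTree.splitK 1023 (SlabTree.leaf (10229) (-2) 64) (SlabTree.splitH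 22 (SlabTree.splitV 446 (SlabTree.splitH 11 (SlabTree.splitH 5 (SlabTree.splitH 2 SlabTree.corner (SlabTree.splitH 3 SlabTree.corner (SlabTree.leaf (-681) (678) 32))) (SlabTree.leaf (-1135) (1132) 64)) (SlabTree.leaf (-2496) (2493) 64)) (SlabTree.splitH 11 (SlabTree.splitH 5 (SlabTree.splitH 2 SlabTree.corner (SlabTree.splitH 3 SlabTree.corner (SlabTree.leaf (-681) (678) 32))) (SlabTree.leaf (-1135) (1132) 64)) (SlabTree.leaf (-2496) (2493) 64))) (SlabTree.leaf (-4994) (4991) 64))) (SlabTree.splitK 1023 (SlabTree.leaf (10229) (-2) 64) (SlabTree.splitH 22 (SlabTree.splitV 448 (SlabTree.splitH 11 (SlabTree.splitH 5 (SlabTree.splitH 2 SlabTree.corner (SlabTree.splitH 3 SlabTree.corner (SlabTree.leaf (-681) (678) 32))) (SlabTree.leaf (-1135) (1132) 64)) (SlabTree.leaf (-2496) (2493) 64)) (SlabTree.splitH 11 (SlabTree.splitH 5 (SlabTree.splitH 2 SlabTree.corner (SlabTree.splitH 3 SlabTree.corner (SlabTree.leaf (-681) (678) 32))) (SlabTree.leaf (-1135)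 (1132) 64)) (SlabTree.leaf (-2496) (2493) 64))) (SlabTree.leaf (-4994) (4991) 64))))))) (SlabTree.leaf (-10230) (10227) 64)) (SlabTree.splitH 45 (SlabTree.splitK 1020 (SlabTree.leaf (20579) (-2) 64) (SlabTree.splitV 453 (SlabTree.splitK 1022 (SlabTree.leaf (14349) (-2) 64) (SlabTree.splitV 451 (SlabTree.splitK 1023 (SlabTree.leaf (10229) (-2) 64) (SlabTree.splitH 22 (SlabTree.splitV 450 (SlabTree.splitH 11 (SlabTree.splitH 5 (SlabTree.splitH 2 SlabTree.corner (SlabTree.splitH 3 SlabTree.corner (SlabTree.leaf (-681) (678) 32))) (SlabTree.leaf (-1135) (1132) 64)) (SlabTree.leaf (-2496) (2493) 64)) (SlabTree.splitH 11 (SlabTree.splitH 5 (SlabTree.splitH 2 SlabTree.corner (SlabTree.splitH 3 SlabTree.corner (SlabTree.leaf (-681) (678) 32))) (SlabTree.leaf (-1135) (1132) 64)) (SlabTree.leaf (-2496) (2493) 64))) (SlabTree.leaf (-4994) (4991) 64))) (SlabTree.splitK 1023 (SlabTree.leaf (10229) (-2) 64) (SlabTree.splitH 22 (SlabTree.splitV 452 (SlabTree.splitH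 11 (SlabTree.splitH 5 (SlabTree.splitH 2 SlabTree.corner (SlabTree.splitH 3 SlabTree.corner (SlabTree.leaf (-681) (678) 32))) (SlabTree.leaf (-1135) (1132) 64)) (SlabTree.leaf (-2496) (2493) 64)) (SlabTree.splitH 11 (SlabTree.splitH 5 (SlabTree.splitH 2 SlabTree.corner (SlabTree.splitH 3 SlabTree.corner (SlabTree.leaf (-681) (678) 32))) (SlabTree.leaf (-1135) (1132) 64)) (SlabTree.leaf (-2496) (2493) 64))) (SlabTree.leaf (-4994) (4991) 64))))) (SlabTree.splitK 1022 (SlabTree.leaf (14349) (-2) 64) (SlabTree.splitV 455 (SlabTree.splitK 1023 (SlabTree.leaf (10229) (-2) 64) (SlabTree.splitH 22 (SlabTree.splitV 454 (SlabTree.splitH 11 (SlabTree.splitH 5 (SlabTree.splitH 2 SlabTree.corner (SlabTree.splitH 3 SlabTree.corner (SlabTree.leaf (-681) (678) 32))) (SlabTree.leaf (-1135) (1132) 64)) (SlabTree.leaf (-2496) (2493) 64)) (SlabTree.splitH 11 (SlabTree.splitH 5 (SlabTree.splitH 2 SlabTree.corner (SlabTree.splitH 3 SlabTree.corner (SlabTree.leaf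 (-681) (678) 32))) (SlabTree.leaf (-1135) (1132) 64)) (SlabTree.leaf (-2496) (2493) 64))) (SlabTree.leaf (-4994) (4991) 64))) (SlabTree.splitK 1023 (SlabTree.leaf (10229) (-2) 64) (SlabTree.splitH 22 (SlabTree.splitV 456 (SlabTree.splitH 11 (SlabTree.splitH 5 (SlabTree.splitH 2 SlabTree.corner (SlabTree.splitH 3 SlabTree.corner (SlabTree.leaf (-681) (678) 32))) (SlabTree.leaf (-1135) (1132) 64)) (SlabTree.leaf (-2496) (2493) 64)) (SlabTree.splitV 457 (SlabTree.splitH 11 (SlabTree.splitH 5 (SlabTree.splitH 2 SlabTree.corner (SlabTree.splitH 3 SlabTree.corner (SlabTree.leaf (-681) (678) 32))) (SlabTree.leaf (-1135) (1132) 64)) (SlabTree.leaf (-2496) (2493) 64)) (SlabTree.splitH 11 (SlabTree.splitH 5 (SlabTree.splitH 2 SlabTree.corner (SlabTree.splitH 3 SlabTree.corner (SlabTree.leaf (-681) (678) 32))) (SlabTree.leaf (-1135) (1132) 64)) (SlabTree.leaf (-2496) (2493) 64)))) (SlabTree.leaf (-4994) (4991) 64))))))) (SlabTree.leaf (-10230) (10227)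 64)))) (SlabTree.splitK 1017 (SlabTree.leaf (27370) (-2) 64) (SlabTree.splitV 467 (SlabTree.splitH 45 (SlabTree.splitK 1020 (SlabTree.leaf (20579) (-2) 64) (SlabTree.splitV 462 (SlabTree.splitK 1022 (SlabTree.leaf (14349) (-2) 64) (SlabTree.splitV 460 (SlabTree.splitK 1023 (SlabTree.leaf (10229) (-2) 64) (SlabTree.splitH 22 (SlabTree.splitV 459 (SlabTree.splitH 11 (SlabTree.splitH 5 (SlabTree.splitH 2 SlabTree.corner (SlabTree.splitH 3 SlabTree.corner (SlabTree.leaf (-681) (678) 32))) (SlabTree.leaf (-1135) (1132) 64)) (SlabTree.leaf (-2496) (2493) 64)) (SlabTree.splitH 11 (SlabTree.splitH 5 (SlabTree.splitH 2 SlabTree.corner (SlabTree.splitH 3 SlabTree.corner (SlabTree.leaf (-681) (678) 32))) (SlabTree.leaf (-1135) (1132) 64)) (SlabTree.leaf (-2496) (2493) 64))) (SlabTree.leaf (-4994) (4991) 64))) (SlabTree.splitK 1023 (SlabTree.leaf (10229) (-2) 64) (SlabTree.splitH 22 (SlabTree.splitV 461 (SlabTree.splitH 11 (SlabTree.splitH 5 (SlabTree.splitH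 2 SlabTree.corner (SlabTree.splitH 3 SlabTree.corner (SlabTree.leaf (-681) (678) 32))) (SlabTree.leaf (-1135) (1132) 64)) (SlabTree.leaf (-2496) (2493) 64)) (SlabTree.splitH 11 (SlabTree.splitH 5 (SlabTree.splitH 2 SlabTree.corner (SlabTree.splitH 3 SlabTree.corner (SlabTree.leaf (-681) (678) 32))) (SlabTree.leaf (-1135) (1132) 64)) (SlabTree.leaf (-2496) (2493) 64))) (SlabTree.leaf (-4994) (4991) 64))))) (SlabTree.splitK 1022 (SlabTree.leaf (14349) (-2) 64) (SlabTree.splitV 464 (SlabTree.splitK 1023 (SlabTree.leaf (10229) (-2) 64) (SlabTree.splitH 22 (SlabTree.splitV 463 (SlabTree.splitH 11 (SlabTree.splitH 5 (SlabTree.splitH 2 SlabTree.corner (SlabTree.splitH 3 SlabTree.corner (SlabTree.leaf (-681) (678) 32))) (SlabTree.leaf (-1135) (1132) 64)) (SlabTree.leaf (-2496) (2493) 64)) (SlabTree.splitH 11 (SlabTree.splitH 5 (SlabTree.splitH 2 SlabTree.corner (SlabTree.splitH 3 SlabTree.corner (SlabTree.leaf (-681) (678) 32))) (SlabTree.leaf (-1135)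 (1132) 64)) (SlabTree.leaf (-2496) (2493) 64))) (SlabTree.leaf (-4994) (4991) 64))) (SlabTree.splitK 1023 (SlabTree.leaf (10229) (-2) 64) (SlabTree.splitH 22 (SlabTree.splitV 465 (SlabTree.splitH 11 (SlabTree.splitH 5 (SlabTree.splitH 2 SlabTree.corner (SlabTree.splitH 3 SlabTree.corner (SlabTree.leaf (-681) (678) 32))) (SlabTree.leaf (-1135) (1132) 64)) (SlabTree.leaf (-2496) (2493) 64)) (SlabTree.splitV 466 (SlabTree.splitH 11 (SlabTree.splitH 5 (SlabTree.splitH 2 SlabTree.corner (SlabTree.splitH 3 SlabTree.corner (SlabTree.leaf (-681) (678) 32))) (SlabTree.leaf (-1135) (1132) 64)) (SlabTree.leaf (-2496) (2493) 64)) (SlabTree.splitH 11 (SlabTree.splitH 5 (SlabTree.splitH 2 SlabTree.corner (SlabTree.splitH 3 SlabTree.corner (SlabTree.leaf (-681) (678) 32))) (SlabTree.leaf (-1135) (1132) 64)) (SlabTree.leaf (-2496) (2493) 64)))) (SlabTree.leaf (-4994) (4991) 64))))))) (SlabTree.leaf (-10230) (10227) 64)) (SlabTree.splitH 45 (SlabTree.splitK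 1020 (SlabTree.leaf (20579) (-2) 64) (SlabTree.splitV 471 (SlabTree.splitK 1022 (SlabTree.leaf (14349) (-2) 64) (SlabTree.splitV 469 (SlabTree.splitK 1023 (SlabTree.leaf (10229) (-2) 64) (SlabTree.splitH 22 (SlabTree.splitV 468 (SlabTree.splitH 11 (SlabTree.splitH 5 (SlabTree.splitH 2 SlabTree.corner (SlabTree.splitH 3 SlabTree.corner (SlabTree.leaf (-681) (678) 32))) (SlabTree.leaf (-1135) (1132) 64)) (SlabTree.leaf (-2496) (2493) 64)) (SlabTree.splitH 11 (SlabTree.splitH 5 (SlabTree.splitH 2 SlabTree.corner (SlabTree.splitH 3 SlabTree.corner (SlabTree.leaf (-681) (678) 32))) (SlabTree.leaf (-1135) (1132) 64)) (SlabTree.leaf (-2496) (2493) 64))) (SlabTree.leaf (-4994) (4991) 64))) (SlabTree.splitK 1023 (SlabTree.leaf (10229) (-2) 64) (SlabTree.splitH 22 (SlabTree.splitV 470 (SlabTree.splitH 11 (SlabTree.splitH 5 (SlabTree.splitH 2 SlabTree.corner (SlabTree.splitH 3 SlabTree.corner (SlabTree.leaf (-681) (678) 32))) (SlabTree.leaf (-1135) (1132)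 64)) (SlabTree.leaf (-2496) (2493) 64)) (SlabTree.splitH 11 (SlabTree.splitH 5 (SlabTree.splitH 2 SlabTree.corner (SlabTree.splitH 3 SlabTree.corner (SlabTree.leaf (-681) (678) 32))) (SlabTree.leaf (-1135) (1132) 64)) (SlabTree.leaf (-2496) (2493) 64))) (SlabTree.leaf (-4994) (4991) 64))))) (SlabTree.splitK 1022 (SlabTree.leaf (14349) (-2) 64) (SlabTree.splitV 473 (SlabTree.splitK 1023 (SlabTree.leaf (10229) (-2) 64) (SlabTree.splitH 22 (SlabTree.splitV 472 (SlabTree.splitH 11 (SlabTree.splitH 5 (SlabTree.splitH 2 SlabTree.corner (SlabTree.splitH 3 SlabTree.corner (SlabTree.leaf (-681) (678) 32))) (SlabTree.leaf (-1135) (1132) 64)) (SlabTree.leaf (-2496) (2493) 64)) (SlabTree.splitH 11 (SlabTree.splitH 5 (SlabTree.splitH 2 SlabTree.corner (SlabTree.splitH 3 SlabTree.corner (SlabTree.leaf (-681) (678) 32))) (SlabTree.leaf (-1135) (1132) 64)) (SlabTree.leaf (-2496) (2493) 64))) (SlabTree.leaf (-4994) (4991) 64))) (SlabTree.splitK 1023 (SlabTree.leaf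 (10229) (-2) 64) (SlabTree.splitH 22 (SlabTree.splitV 474 (SlabTree.splitH 11 (SlabTree.splitH 5 (SlabTree.splitH 2 SlabTree.corner (SlabTree.splitH 3 SlabTree.corner (SlabTree.leaf (-681) (678) 32))) (SlabTree.leaf (-1135) (1132) 64)) (SlabTree.leaf (-2496) (2493) 64)) (SlabTree.splitV 475 (SlabTree.splitH 11 (SlabTree.splitH 5 (SlabTree.splitH 2 SlabTree.corner (SlabTree.splitH 3 SlabTree.corner (SlabTree.leaf (-681) (678) 32))) (SlabTree.leaf (-1135) (1132) 64)) (SlabTree.leaf (-2496) (2493) 64)) (SlabTree.splitH 11 (SlabTree.splitH 5 (SlabTree.splitH 2 SlabTree.corner (SlabTree.splitH 3 SlabTree.corner (SlabTree.leaf (-681) (678) 32))) (SlabTree.leaf (-1135) (1132) 64)) (SlabTree.leaf (-2496) (2493) 64)))) (SlabTree.leaf (-4994) (4991) 64))))))) (SlabTree.leaf (-10230) (10227) 64)))))) (SlabTree.splitK 1011 (SlabTree.leaf (16891) (20286) 64) (SlabTree.leaf (-20578) (20575) 64))) (SlabTree.splitH 90 (SlabTree.splitK 1011 (SlabTree.leaf (37704)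 (-2) 64) (SlabTree.splitV 494 (SlabTree.splitK 1017 (SlabTree.leaf (27370) (-2) 64) (SlabTree.splitV 485 (SlabTree.splitH 45 (SlabTree.splitK 1020 (SlabTree.leaf (20579) (-2) 64) (SlabTree.splitV 480 (SlabTree.splitK 1022 (SlabTree.leaf (14349) (-2) 64) (SlabTree.splitV 478 (SlabTree.splitK 1023 (SlabTree.leaf (10229) (-2) 64) (SlabTree.splitH 22 (SlabTree.splitV 477 (SlabTree.splitH 11 (SlabTree.splitH 5 (SlabTree.splitH 2 SlabTree.corner (SlabTree.splitH 3 SlabTree.corner (SlabTree.leaf (-681) (678) 32))) (SlabTree.leaf (-1135) (1132) 64)) (SlabTree.leaf (-2496) (2493) 64)) (SlabTree.splitH 11 (SlabTree.splitH 5 (SlabTree.splitH 2 SlabTree.corner (SlabTree.splitH 3 SlabTree.corner (SlabTree.leaf (-681) (678) 32))) (SlabTree.leaf (-1135) (1132) 64)) (SlabTree.leaf (-2496) (2493) 64))) (SlabTree.leaf (-4994) (4991) 64))) (SlabTree.splitK 1023 (SlabTree.leaf (10229) (-2) 64) (SlabTree.splitH 22 (SlabTree.splitV 479 (SlabTree.splitH 11 (SlabTree.splitH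 5 (SlabTree.splitH 2 SlabTree.corner (SlabTree.splitH 3 SlabTree.corner (SlabTree.leaf (-681) (678) 32))) (SlabTree.leaf (-1135) (1132) 64)) (SlabTree.leaf (-2496) (2493) 64)) (SlabTree.splitH 11 (SlabTree.splitH 5 (SlabTree.splitH 2 SlabTree.corner (SlabTree.splitH 3 SlabTree.corner (SlabTree.leaf (-681) (678) 32))) (SlabTree.leaf (-1135) (1132) 64)) (SlabTree.leaf (-2496) (2493) 64))) (SlabTree.leaf (-4994) (4991) 64))))) (SlabTree.splitK 1022 (SlabTree.leaf (14349) (-2) 64) (SlabTree.splitV 482 (SlabTree.splitK 1023 (SlabTree.leaf (10229) (-2) 64) (SlabTree.splitH 22 (SlabTree.splitV 481 (SlabTree.splitH 11 (SlabTree.splitH 5 (SlabTree.splitH 2 SlabTree.corner (SlabTree.splitH 3 SlabTree.corner (SlabTree.leaf (-681) (678) 32))) (SlabTree.leaf (-1135) (1132) 64)) (SlabTree.leaf (-2496) (2493) 64)) (SlabTree.splitH 11 (SlabTree.splitH 5 (SlabTree.splitH 2 SlabTree.corner (SlabTree.splitH 3 SlabTree.corner (SlabTree.leaf (-681) (678) 32))) (SlabTree.leaf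 (-1135) (1132) 64)) (SlabTree.leaf (-2496) (2493) 64))) (SlabTree.leaf (-4994) (4991) 64))) (SlabTree.splitK 1023 (SlabTree.leaf (10229) (-2) 64) (SlabTree.splitH 22 (SlabTree.splitV 483 (SlabTree.splitH 11 (SlabTree.splitH 5 (SlabTree.splitH 2 SlabTree.corner (SlabTree.splitH 3 SlabTree.corner (SlabTree.leaf (-681) (678) 32))) (SlabTree.leaf (-1135) (1132) 64)) (SlabTree.leaf (-2496) (2493) 64)) (SlabTree.splitV 484 (SlabTree.splitH 11 (SlabTree.splitH 5 (SlabTree.splitH 2 SlabTree.corner (SlabTree.splitH 3 SlabTree.corner (SlabTree.leaf (-681) (678) 32))) (SlabTree.leaf (-1135) (1132) 64)) (SlabTree.leaf (-2496) (2493) 64)) (SlabTree.splitH 11 (SlabTree.splitH 5 (SlabTree.splitH 2 SlabTree.corner (SlabTree.splitH 3 SlabTree.corner (SlabTree.leaf (-681) (678) 32))) (SlabTree.leaf (-1135) (1132) 64)) (SlabTree.leaf (-2496) (2493) 64)))) (SlabTree.leaf (-4994) (4991) 64))))))) (SlabTree.leaf (-10230) (10227) 64)) (SlabTree.splitH 45 (SlabTree.splitK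 1020 (SlabTree.leaf (20579) (-2) 64) (SlabTree.splitV 489 (SlabTree.splitK 1022 (SlabTree.leaf (14349) (-2) 64) (SlabTree.splitV 487 (SlabTree.splitK 1023 (SlabTree.leaf (10229) (-2) 64) (SlabTree.splitH 22 (SlabTree.splitV 486 (SlabTree.splitH 11 (SlabTree.splitH 5 (SlabTree.splitH 2 SlabTree.corner (SlabTree.splitH 3 SlabTree.corner (SlabTree.leaf (-681) (678) 32))) (SlabTree.leaf (-1135) (1132) 64)) (SlabTree.leaf (-2496) (2493) 64)) (SlabTree.splitH 11 (SlabTree.splitH 5 (SlabTree.splitH 2 SlabTree.corner (SlabTree.splitH 3 SlabTree.corner (SlabTree.leaf (-681) (678) 32))) (SlabTree.leaf (-1135) (1132) 64)) (SlabTree.leaf (-2496) (2493) 64))) (SlabTree.leaf (-4994) (4991) 64))) (SlabTree.splitK 1023 (SlabTree.leaf (10229) (-2) 64) (SlabTree.splitH 22 (SlabTree.splitV 488 (SlabTree.splitH 11 (SlabTree.splitH 5 (SlabTree.splitH 2 SlabTree.corner (SlabTree.splitH 3 SlabTree.corner (SlabTree.leaf (-681) (678) 32))) (SlabTree.leaf (-1135) (1132)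 64)) (SlabTree.leaf (-2496) (2493) 64)) (SlabTree.splitH 11 (SlabTree.splitH 5 (SlabTree.splitH 2 SlabTree.corner (SlabTree.splitH 3 SlabTree.corner (SlabTree.leaf (-681) (678) 32))) (SlabTree.leaf (-1135) (1132) 64)) (SlabTree.leaf (-2496) (2493) 64))) (SlabTree.leaf (-4994) (4991) 64))))) (SlabTree.splitK 1022 (SlabTree.leaf (14349) (-2) 64) (SlabTree.splitV 491 (SlabTree.splitK 1023 (SlabTree.leaf (10229) (-2) 64) (SlabTree.splitH 22 (SlabTree.splitV 490 (SlabTree.splitH 11 (SlabTree.splitH 5 (SlabTree.splitH 2 SlabTree.corner (SlabTree.splitH 3 SlabTree.corner (SlabTree.leaf (-681) (678) 32))) (SlabTree.leaf (-1135) (1132) 64)) (SlabTree.leaf (-2496) (2493) 64)) (SlabTree.splitH 11 (SlabTree.splitH 5 (SlabTree.splitH 2 SlabTree.corner (SlabTree.splitH 3 SlabTree.corner (SlabTree.leaf (-681) (678) 32))) (SlabTree.leaf (-1135) (1132) 64)) (SlabTree.leaf (-2496) (2493) 64))) (SlabTree.leaf (-4994) (4991) 64))) (SlabTree.splitK 1023 (SlabTree.leaf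 (10229) (-2) 64) (SlabTree.splitH 22 (SlabTree.splitV 492 (SlabTree.splitH 11 (SlabTree.splitH 5 (SlabTree.splitH 2 SlabTree.corner (SlabTree.splitH 3 SlabTree.corner (SlabTree.leaf (-681) (678) 32))) (SlabTree.leaf (-1135) (1132) 64)) (SlabTree.leaf (-2496) (2493) 64)) (SlabTree.splitV 493 (SlabTree.splitH 11 (SlabTree.splitH 5 (SlabTree.splitH 2 SlabTree.corner (SlabTree.splitH 3 SlabTree.corner (SlabTree.leaf (-681) (678) 32))) (SlabTree.leaf (-1135) (1132) 64)) (SlabTree.leaf (-2496) (2493) 64)) (SlabTree.splitH 11 (SlabTree.splitH 5 (SlabTree.splitH 2 SlabTree.corner (SlabTree.splitH 3 SlabTree.corner (SlabTree.leaf (-681) (678) 32))) (SlabTree.leaf (-1135) (1132) 64)) (SlabTree.leaf (-2496) (2493) 64)))) (SlabTree.leaf (-4994) (4991) 64))))))) (SlabTree.leaf (-10230) (10227) 64)))) (SlabTree.splitK 1017 (SlabTree.leaf (27370) (-2) 64) (SlabTree.splitV 503 (SlabTree.splitH 45 (SlabTree.splitK 1020 (SlabTree.leaf (20579) (-2) 64) (SlabTree.splitV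 498 (SlabTree.splitK 1022 (SlabTree.leaf (14349) (-2) 64) (SlabTree.splitV 496 (SlabTree.splitK 1023 (SlabTree.leaf (10229) (-2) 64) (SlabTree.splitH 22 (SlabTree.splitV 495 (SlabTree.splitH 11 (SlabTree.splitH 5 (SlabTree.splitH 2 SlabTree.corner (SlabTree.splitH 3 SlabTree.corner (SlabTree.leaf (-681) (678) 32))) (SlabTree.leaf (-1135) (1132) 64)) (SlabTree.leaf (-2496) (2493) 64)) (SlabTree.splitH 11 (SlabTree.splitH 5 (SlabTree.splitH 2 SlabTree.corner (SlabTree.splitH 3 SlabTree.corner (SlabTree.leaf (-681) (678) 32))) (SlabTree.leaf (-1135) (1132) 64)) (SlabTree.leaf (-2496) (2493) 64))) (SlabTree.leaf (-4994) (4991) 64))) (SlabTree.splitK 1023 (SlabTree.leaf (10229) (-2) 64) (SlabTree.splitH 22 (SlabTree.splitV 497 (SlabTree.splitH 11 (SlabTree.splitH 5 (SlabTree.splitH 2 SlabTree.corner (SlabTree.splitH 3 SlabTree.corner (SlabTree.leaf (-681) (678) 32))) (SlabTree.leaf (-1135) (1132) 64)) (SlabTree.leaf (-2496) (2493) 64)) (SlabTree.splitH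 11 (SlabTree.splitH 5 (SlabTree.splitH 2 SlabTree.corner (SlabTree.splitH 3 SlabTree.corner (SlabTree.leaf (-681) (678) 32))) (SlabTree.leaf (-1135) (1132) 64)) (SlabTree.leaf (-2496) (2493) 64))) (SlabTree.leaf (-4994) (4991) 64))))) (SlabTree.splitK 1022 (SlabTree.leaf (14349) (-2) 64) (SlabTree.splitV 500 (SlabTree.splitK 1023 (SlabTree.leaf (10229) (-2) 64) (SlabTree.splitH 22 (SlabTree.splitV 499 (SlabTree.splitH 11 (SlabTree.splitH 5 (SlabTree.splitH 2 SlabTree.corner (SlabTree.splitH 3 SlabTree.corner (SlabTree.leaf (-681) (678) 32))) (SlabTree.leaf (-1135) (1132) 64)) (SlabTree.leaf (-2496) (2493) 64)) (SlabTree.splitH 11 (SlabTree.splitH 5 (SlabTree.splitH 2 SlabTree.corner (SlabTree.splitH 3 SlabTree.corner (SlabTree.leaf (-681) (678) 32))) (SlabTree.leaf (-1135) (1132) 64)) (SlabTree.leaf (-2496) (2493) 64))) (SlabTree.leaf (-4994) (4991) 64))) (SlabTree.splitK 1023 (SlabTree.leaf (10229) (-2) 64) (SlabTree.splitH 22 (SlabTree.splitV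 501 (SlabTree.splitH 11 (SlabTree.splitH 5 (SlabTree.splitH 2 SlabTree.corner (SlabTree.splitH 3 SlabTree.corner (SlabTree.leaf (-681) (678) 32))) (SlabTree.leaf (-1135) (1132) 64)) (SlabTree.leaf (-2496) (2493) 64)) (SlabTree.splitV 502 (SlabTree.splitH 11 (SlabTree.splitH 5 (SlabTree.splitH 2 SlabTree.corner (SlabTree.splitH 3 SlabTree.corner (SlabTree.leaf (-681) (678) 32))) (SlabTree.leaf (-1135) (1132) 64)) (SlabTree.leaf (-2496) (2493) 64)) (SlabTree.splitH 11 (SlabTree.splitH 5 (SlabTree.splitH 2 SlabTree.corner (SlabTree.splitH 3 SlabTree.corner (SlabTree.leaf (-681) (678) 32))) (SlabTree.leaf (-1135) (1132) 64)) (SlabTree.leaf (-2496) (2493) 64)))) (SlabTree.leaf (-4994) (4991) 64))))))) (SlabTree.leaf (-10230) (10227) 64)) (SlabTree.splitH 45 (SlabTree.splitK 1020 (SlabTree.leaf (20579) (-2) 64) (SlabTree.splitV 507 (SlabTree.splitK 1022 (SlabTree.leaf (14349) (-2) 64) (SlabTree.splitV 505 (SlabTree.splitK 1023 (SlabTree.leaf (10229)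 (-2) 64) (SlabTree.splitH 22 (SlabTree.splitV 504 (SlabTree.splitH 11 (SlabTree.splitH 5 (SlabTree.splitH 2 SlabTree.corner (SlabTree.splitH 3 SlabTree.corner (SlabTree.leaf (-681) (678) 32))) (SlabTree.leaf (-1135) (1132) 64)) (SlabTree.leaf (-2496) (2493) 64)) (SlabTree.splitH 11 (SlabTree.splitH 5 (SlabTree.splitH 2 SlabTree.corner (SlabTree.splitH 3 SlabTree.corner (SlabTree.leaf (-681) (678) 32))) (SlabTree.leaf (-1135) (1132) 64)) (SlabTree.leaf (-2496) (2493) 64))) (SlabTree.leaf (-4994) (4991) 64))) (SlabTree.splitK 1023 (SlabTree.leaf (10229) (-2) 64) (SlabTree.splitH 22 (SlabTree.splitV 506 (SlabTree.splitH 11 (SlabTree.splitH 5 (SlabTree.splitH 2 SlabTree.corner (SlabTree.splitH 3 SlabTree.corner (SlabTree.leaf (-681) (678) 32))) (SlabTree.leaf (-1135) (1132) 64)) (SlabTree.leaf (-2496) (2493) 64)) (SlabTree.splitH 11 (SlabTree.splitH 5 (SlabTree.splitH 2 SlabTree.corner (SlabTree.splitH 3 SlabTree.corner (SlabTree.leaf (-681) (678)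 32))) (SlabTree.leaf (-1135) (1132) 64)) (SlabTree.leaf (-2496) (2493) 64))) (SlabTree.leaf (-4994) (4991) 64))))) (SlabTree.splitK 1022 (SlabTree.leaf (14349) (-2) 64) (SlabTree.splitV 509 (SlabTree.splitK 1023 (SlabTree.leaf (10229) (-2) 64) (SlabTree.splitH 22 (SlabTree.splitV 508 (SlabTree.splitH 11 (SlabTree.splitH 5 (SlabTree.splitH 2 SlabTree.corner (SlabTree.splitH 3 SlabTree.corner (SlabTree.leaf (-681) (678) 32))) (SlabTree.leaf (-1135) (1132) 64)) (SlabTree.leaf (-2496) (2493) 64)) (SlabTree.splitH 11 (SlabTree.splitH 5 (SlabTree.splitH 2 SlabTree.corner (SlabTree.splitH 3 SlabTree.corner (SlabTree.leaf (-681) (678) 32))) (SlabTree.leaf (-1135) (1132) 64)) (SlabTree.leaf (-2496) (2493) 64))) (SlabTree.leaf (-4994) (4991) 64))) (SlabTree.splitK 1023 (SlabTree.leaf (10229) (-2) 64) (SlabTree.splitH 22 (SlabTree.splitV 510 (SlabTree.splitH 11 (SlabTree.splitH 5 (SlabTree.splitH 2 SlabTree.corner (SlabTree.splitH 3 SlabTree.corner (SlabTree.leaf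 (-681) (678) 32))) (SlabTree.leaf (-1135) (1132) 64)) (SlabTree.leaf (-2496) (2493) 64)) (SlabTree.splitV 511 (SlabTree.splitH 11 (SlabTree.splitH 5 (SlabTree.splitH 2 SlabTree.corner (SlabTree.splitH 3 SlabTree.corner (SlabTree.leaf (-681) (678) 32))) (SlabTree.leaf (-1135) (1132) 64)) (SlabTree.leaf (-2496) (2493) 64)) (SlabTree.splitH 11 (SlabTree.splitH 5 (SlabTree.splitH 2 SlabTree.corner (SlabTree.splitH 3 SlabTree.corner (SlabTree.leaf (-681) (678) 32))) (SlabTree.leaf (-1135) (1132) 64)) (SlabTree.leaf (-2496) (2493) 64)))) (SlabTree.leaf (-4994) (4991) 64))))))) (SlabTree.leaf (-10230) (10227) 64)))))) (SlabTree.splitK 1011 (SlabTree.leaf (16891) (20286) 64) (SlabTree.leaf (-20578) (20575) 64))))))) (SlabTree.splitK 972 (SlabTree.leaf (36778) (39913) 32) (SlabTree.splitV 441 (SlabTree.splitH 271 (SlabTree.splitK 998 (SlabTree.leaf (11854) (40691) 64) (SlabTree.leaf (-42389) (42386) 64)) (SlabTree.leaf (-66114) (66111) 64)) (SlabTree.splitH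 271 (SlabTree.splitK 998 (SlabTree.leaf (11854) (40691) 64) (SlabTree.leaf (-42389) (42386) 64)) (SlabTree.splitK 998 (SlabTree.leaf (-10831) (62239) 64) (SlabTree.leaf (-66114) (66111) 64)))))))) (SlabTree.splitK 819 (SlabTree.splitH 543 (SlabTree.splitK 717 (SlabTree.splitH 452 (SlabTree.splitK 666 (SlabTree.splitV 441 (SlabTree.splitH 407 (SlabTree.leaf (197454) (47545) 64) (SlabTree.splitV 405 (SlabTree.splitK 640 (SlabTree.leaf (264613) (27705) 64) (SlabTree.leaf (156908) (64696) 32)) (SlabTree.leaf (285586) (10264) 64))) SlabTree.none) (SlabTree.splitV 441 (SlabTree.splitH 407 (SlabTree.splitK 691 (SlabTree.leaf (156994) (59581) 32) (SlabTree.leaf (133981) (65382) 16)) (SlabTree.splitK 691 (SlabTree.leaf (130249) (71759) 4) (SlabTree.splitV 405 (SlabTree.splitH 429 (SlabTree.leaf (116564) (73921) 8) (SlabTree.splitK 704 (SlabTree.leaf (113559) (77395) 8) (SlabTree.leaf (107203) (78511) 8))) (SlabTree.leaf (120453) (72014) 64)))) (SlabTree.leaf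 (171848) (46817) 64))) (SlabTree.splitK 666 (SlabTree.splitV 441 (SlabTree.splitH 497 (SlabTree.splitV 405 (SlabTree.splitK 640 (SlabTree.leaf (173936) (63126) 64) (SlabTree.splitH 474 (SlabTree.leaf (131738) (75343) 16) (SlabTree.splitV 387 (SlabTree.splitK 653 (SlabTree.leaf (130072) (78175) 32) (SlabTree.leaf (112741) (83379) 8)) (SlabTree.leaf (130693) (75785) 64)))) (SlabTree.leaf (187236) (51867) 64)) (SlabTree.splitV 405 (SlabTree.splitK 640 (SlabTree.splitH 520 (SlabTree.leaf (123229) (82933) 16) (SlabTree.splitV 387 (SlabTree.splitK 627 (SlabTree.leaf (148113) (75539) 64) (SlabTree.leaf (98662) (92530) 8)) (SlabTree.leaf (183141) (59530) 64))) (SlabTree.splitH 520 (SlabTree.splitV 387 (SlabTree.splitK 653 (SlabTree.leaf (107053) (87536) 8) (SlabTree.splitH 508 (SlabTree.leaf (97713) (89736) 4) (SlabTree.splitV 378 (SlabTree.splitK 659 (SlabTree.leaf (94136) (92082) 8) (SlabTree.leaf (89429) (93240) 2)) (SlabTree.leaf (89429) (93240)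 16)))) (SlabTree.leaf (97713) (89736) 32)) (SlabTree.splitV 387 (SlabTree.splitK 653 (SlabTree.splitH 531 (SlabTree.leaf (88031) (95271) 4) (SlabTree.splitV 378 (SlabTree.splitK 646 (SlabTree.leaf (82131) (98383) 8) (SlabTree.leaf (76961) (99773) 4)) (SlabTree.leaf (76961) (99773) 16))) (SlabTree.splitH 531 (SlabTree.splitV 378 (SlabTree.splitK 659 (SlabTree.leaf (83803) (96361) 4) (SlabTree.splitH 525 (SlabTree.leaf (79314) (97519) 2) (SlabTree.leaf (74699) (99471) 2))) (SlabTree.leaf (79314) (97519) 16)) (SlabTree.splitV 378 (SlabTree.splitK 659 (SlabTree.leaf (72983) (100842) 1) (SlabTree.splitH 537 (SlabTree.leaf (68794) (101969) 2) (SlabTree.leaf (62437) (104658) 2))) (SlabTree.leaf (68794) (101969) 8)))) (SlabTree.leaf (79314) (97519) 16)))) (SlabTree.leaf (97713) (89736) 64))) SlabTree.none) (SlabTree.splitV 441 (SlabTree.splitH 497 (SlabTree.splitK 691 (SlabTree.splitV 405 (SlabTree.splitH 474 (SlabTree.splitV 387 (SlabTree.splitK 678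 (SlabTree.leaf (117121) (79725) 8) (SlabTree.leaf (109491) (81211) 4)) (SlabTree.leaf (114352) (78998) 32)) (SlabTree.splitV 387 (SlabTree.splitK 678 (SlabTree.splitH 485 (SlabTree.leaf (106642) (84319) 8) (SlabTree.leaf (98281) (87984) 2)) (SlabTree.splitH 485 (SlabTree.leaf (97612) (86621) 2) (SlabTree.splitK 684 (SlabTree.leaf (94828) (88759) 2) (SlabTree.leaf (91060) (89604) 1)))) (SlabTree.leaf (97612) (86621) 32))) (SlabTree.leaf (111180) (80442) 64)) (SlabTree.splitV 405 (SlabTree.splitH 474 (SlabTree.splitK 704 (SlabTree.leaf (102675) (82539) 2) (SlabTree.leaf (96552) (83732) 2)) (SlabTree.splitK 704 (SlabTree.splitV 387 (SlabTree.splitH 485 (SlabTree.splitK 697 (SlabTree.leaf (94499) (87288) 4) (SlabTree.leaf (91078) (88021) 4)) (SlabTree.splitK 697 (SlabTree.splitV 378 (SlabTree.splitH 491 (SlabTree.leaf (88034) (90283) 2) (SlabTree.leaf (84308) (92009) 2)) (SlabTree.leaf (88034) (90283) 16)) (SlabTree.splitV 378 (SlabTree.splitH 491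 (SlabTree.leaf (84719) (91027) 2) (SlabTree.leaf (81060) (92756) 2)) (SlabTree.leaf (84719) (91027) 16)))) (SlabTree.leaf (91078) (88021) 32)) (SlabTree.splitV 387 (SlabTree.splitH 485 (SlabTree.leaf (85265) (89266) 2) (SlabTree.splitK 710 (SlabTree.leaf (82045) (91626) 2) (SlabTree.leaf (79106) (92286) 2))) (SlabTree.leaf (85265) (89266) 32)))) (SlabTree.leaf (96552) (83732) 64))) (SlabTree.splitK 691 (SlabTree.splitV 405 (SlabTree.splitH 520 (SlabTree.splitV 387 (SlabTree.splitK 678 (SlabTree.splitH 508 (SlabTree.splitV 378 (SlabTree.splitK 672 (SlabTree.leaf (93879) (90639) 4) (SlabTree.leaf (90303) (91481) 2)) (SlabTree.leaf (90303) (91481) 16)) (SlabTree.splitV 378 (SlabTree.splitK 672 (SlabTree.splitH 514 (SlabTree.leaf (85719) (94153) 2) (SlabTree.leaf (80907) (96226) 2)) (SlabTree.splitH 514 (SlabTree.leaf (82276) (95001) 2) (SlabTree.leaf (77555) (97070) 1))) (SlabTree.leaf (82276) (95001) 8))) (SlabTree.splitH 508 (SlabTree.splitK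 684 (SlabTree.splitV 378 (SlabTree.splitH 502 (SlabTree.leaf (86962) (92269) 2) (SlabTree.leaf (83463) (93829) 2)) (SlabTree.leaf (86962) (92269) 16)) (SlabTree.splitV 378 (SlabTree.splitH 502 (SlabTree.leaf (83330) (93124) 2) (SlabTree.splitK 687 (SlabTree.leaf (81903) (94204) 2) (SlabTree.leaf (79901) (94686) 2))) (SlabTree.leaf (83330) (93124) 8))) (SlabTree.splitK 684 (SlabTree.splitV 378 (SlabTree.splitH 514 (SlabTree.splitK 681 (SlabTree.leaf (80645) (95402) 2) (SlabTree.leaf (79071) (95789) 2)) (SlabTree.splitK 681 (SlabTree.leaf (75970) (97469) 1) (SlabTree.leaf (74443) (97854) 1))) (SlabTree.leaf (79071) (95789) 8)) (SlabTree.splitV 378 (SlabTree.splitH 514 (SlabTree.splitK 687 (SlabTree.leaf (77550) (96164) 2) (SlabTree.leaf (75602) (96643) 1)) (SlabTree.splitK 687 (SlabTree.leaf (72969) (98226) 1) (SlabTree.leaf (71083) (98701) 1))) (SlabTree.leaf (75602) (96643) 8))))) (SlabTree.leaf (83330) (93124) 16)) (SlabTree.splitV 387 (SlabTree.splitK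 678 (SlabTree.splitH 531 (SlabTree.splitV 378 (SlabTree.splitK 672 (SlabTree.splitH 525 (SlabTree.leaf (75800) (98425) 2) (SlabTree.leaf (71290) (100367) 1)) (SlabTree.splitH 525 (SlabTree.leaf (72556) (99262) 1) (SlabTree.leaf (68153) (101192) 1))) (SlabTree.leaf (72556) (99262) 8)) (SlabTree.splitV 378 (SlabTree.splitK 672 (SlabTree.splitH 537 (SlabTree.leaf (65538) (102844) 1) (SlabTree.leaf (59366) (105502) 2)) (SlabTree.splitH 537 (SlabTree.leaf (62551) (103647) 1) (SlabTree.leaf (56559) (106274) 2))) (SlabTree.leaf (62551) (103647) 8))) (SlabTree.splitH 531 (SlabTree.splitK 684 (SlabTree.splitV 378 (SlabTree.splitH 525 (SlabTree.leaf (69553) (100036) 1) (SlabTree.leaf (65256) (101953) 1)) (SlabTree.leaf (69553) (100036) 8)) (SlabTree.splitV 378 (SlabTree.splitH 525 (SlabTree.leaf (66320) (100870) 1) (SlabTree.leaf (62144) (102771) 1)) (SlabTree.leaf (66320) (100870) 8))) (SlabTree.splitK 684 (SlabTree.splitV 378 (SlabTree.splitH 537 (SlabTree.leaf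 (59802) (104387) 2) (SlabTree.leaf (53984) (106983) 4)) (SlabTree.leaf (59802) (104387) 8)) (SlabTree.splitV 378 (SlabTree.splitH 537 (SlabTree.leaf (56858) (105179) 2) (SlabTree.leaf (51237) (107738) 4)) (SlabTree.leaf (56858) (105179) 8))))) (SlabTree.leaf (66320) (100870) 8))) (SlabTree.leaf (83330) (93124) 32)) (SlabTree.splitV 405 (SlabTree.splitH 520 (SlabTree.splitK 704 (SlabTree.splitV 387 (SlabTree.splitH 508 (SlabTree.splitK 697 (SlabTree.splitV 378 (SlabTree.splitH 502 (SlabTree.leaf (80424) (93809) 2) (SlabTree.splitK 694 (SlabTree.leaf (78455) (95033) 2) (SlabTree.leaf (77055) (95370) 2))) (SlabTree.leaf (80424) (93809) 8)) (SlabTree.splitV 378 (SlabTree.splitH 502 (SlabTree.leaf (77251) (94556) 2) (SlabTree.leaf (73953) (96115) 2)) (SlabTree.leaf (77251) (94556) 8))) (SlabTree.splitK 697 (SlabTree.splitV 378 (SlabTree.splitH 514 (SlabTree.splitK 694 (SlabTree.leaf (74197) (96989) 2) (SlabTree.leaf (72837) (97323) 2)) (SlabTree.leaf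 (68412) (99374) 1)) (SlabTree.leaf (72837) (97323) 8)) (SlabTree.splitV 378 (SlabTree.splitH 514 (SlabTree.leaf (69830) (98063) 2) (SlabTree.leaf (65513) (100104) 2)) (SlabTree.leaf (69830) (98063) 8)))) (SlabTree.leaf (77251) (94556) 16)) (SlabTree.splitV 387 (SlabTree.splitH 508 (SlabTree.splitK 710 (SlabTree.leaf (74702) (95157) 2) (SlabTree.leaf (71774) (95846) 2)) (SlabTree.leaf (64792) (99304) 1)) (SlabTree.leaf (71908) (95815) 16))) (SlabTree.splitK 704 (SlabTree.splitV 387 (SlabTree.splitH 531 (SlabTree.splitK 697 (SlabTree.splitV 378 (SlabTree.splitH 525 (SlabTree.leaf (63756) (101531) 2) (SlabTree.leaf (59512) (103463) 2)) (SlabTree.leaf (63756) (101531) 8)) (SlabTree.leaf (60821) (102288) 1)) (SlabTree.leaf (52032) (106476) 1)) (SlabTree.leaf (60980) (102247) 16)) (SlabTree.splitV 387 (SlabTree.splitH 531 (SlabTree.leaf (56357) (103439) 4) (SlabTree.leaf (45133) (108331) 8)) (SlabTree.leaf (56357) (103439) 16)))) (SlabTree.leaf (71908)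 (95815) 32)))) (SlabTree.leaf (96552) (83732) 64)))) (SlabTree.splitH 452 (SlabTree.splitK 768 (SlabTree.splitV 441 (SlabTree.splitH 407 (SlabTree.splitK 742 (SlabTree.leaf (122332) (66838) 16) (SlabTree.leaf (111864) (68146) 16)) (SlabTree.splitK 742 (SlabTree.splitV 405 (SlabTree.splitH 429 (SlabTree.leaf (105518) (75666) 8) (SlabTree.leaf (96534) (80383) 4)) (SlabTree.leaf (105518) (75666) 64)) (SlabTree.leaf (95752) (77209) 4))) (SlabTree.leaf (111864) (68146) 64)) (SlabTree.splitV 441 (SlabTree.splitK 793 (SlabTree.splitH 407 (SlabTree.leaf (103094) (69242) 32) (SlabTree.leaf (87685) (78483) 16)) (SlabTree.leaf (95088) (70242) 8)) (SlabTree.leaf (95088) (70242) 64))) (SlabTree.splitK 768 (SlabTree.splitV 441 (SlabTree.splitH 497 (SlabTree.splitK 742 (SlabTree.splitV 405 (SlabTree.splitH 474 (SlabTree.splitK 729 (SlabTree.leaf (91431) (84730) 4) (SlabTree.leaf (86381) (85714) 8)) (SlabTree.splitK 729 (SlabTree.splitV 387 (SlabTree.splitH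 485 (SlabTree.leaf (80442) (90300) 4) (SlabTree.leaf (74472) (93325) 4)) (SlabTree.leaf (80442) (90300) 16)) (SlabTree.leaf (75722) (91311) 4))) (SlabTree.leaf (86381) (85714) 64)) (SlabTree.splitV 405 (SlabTree.splitH 474 (SlabTree.leaf (77585) (87428) 8) (SlabTree.leaf (67580) (93055) 8)) (SlabTree.leaf (77585) (87428) 64))) (SlabTree.splitK 742 (SlabTree.splitV 405 (SlabTree.splitH 520 (SlabTree.splitK 729 (SlabTree.splitV 387 (SlabTree.splitH 508 (SlabTree.leaf (67521) (96848) 4) (SlabTree.leaf (58760) (100788) 4)) (SlabTree.leaf (67521) (96848) 16)) (SlabTree.leaf (60017) (98616) 4)) (SlabTree.leaf (48068) (105576) 2)) (SlabTree.leaf (63268) (97850) 32)) (SlabTree.splitV 405 (SlabTree.splitH 520 (SlabTree.leaf (51093) (100718) 16) (SlabTree.leaf (28741) (110560) 32)) (SlabTree.leaf (56022) (99557) 32)))) (SlabTree.leaf (77585) (87428) 64)) (SlabTree.splitV 441 (SlabTree.splitH 497 (SlabTree.leaf (64122) (90051) 16) (SlabTree.leaf (32541)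 (105088) 32)) (SlabTree.leaf (64122) (90051) 64))))) (SlabTree.splitK 717 (SlabTree.splitH 634 (SlabTree.splitK 666 (SlabTree.splitV 441 (SlabTree.splitH 588 (SlabTree.splitV 405 (SlabTree.splitK 640 (SlabTree.splitH 565 (SlabTree.splitV 387 (SlabTree.splitK 627 (SlabTree.leaf (84067) (99551) 32) (SlabTree.splitH 554 (SlabTree.leaf (72000) (102944) 8) (SlabTree.leaf (54977) (109594) 8))) (SlabTree.leaf (79064) (100185) 64)) (SlabTree.splitV 387 (SlabTree.splitK 627 (SlabTree.splitH 576 (SlabTree.leaf (40978) (115706) 32) (SlabTree.leaf (8452) (127901) 64)) (SlabTree.splitH 576 (SlabTree.leaf (33510) (117980) 16) (SlabTree.leaf (5289) (129003) 64))) (SlabTree.leaf (33510) (117980) 64))) (SlabTree.splitH 565 (SlabTree.splitV 387 (SlabTree.splitK 653 (SlabTree.splitH 554 (SlabTree.splitV 378 (SlabTree.splitK 646 (SlabTree.leaf (67464) (104220) 8) (SlabTree.leaf (62801) (105531) 4)) (SlabTree.leaf (62801) (105531) 16)) (SlabTree.leaf (47244) (111857)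 2)) (SlabTree.splitH 554 (SlabTree.splitV 378 (SlabTree.splitK 659 (SlabTree.leaf (59255) (106528) 2) (SlabTree.splitH 548 (SlabTree.leaf (55560) (107567) 4) (SlabTree.leaf (49372) (110185) 4))) (SlabTree.leaf (55560) (107567) 8)) (SlabTree.leaf (41315) (113593) 2))) (SlabTree.leaf (55560) (107567) 8)) (SlabTree.splitV 387 (SlabTree.splitK 653 (SlabTree.splitH 576 (SlabTree.leaf (28255) (119579) 16) (SlabTree.leaf (1998) (130045) 64)) (SlabTree.splitH 576 (SlabTree.leaf (24358) (120766) 16) (SlabTree.leaf (20) (130670) 64))) (SlabTree.leaf (24358) (120766) 16)))) (SlabTree.splitK 640 SlabTree.none (SlabTree.leaf (55560) (107567) 32))) SlabTree.triv) SlabTree.none) (SlabTree.splitV 441 (SlabTree.splitH 588 (SlabTree.splitK 691 (SlabTree.splitV 405 (SlabTree.splitH 565 (SlabTree.splitV 387 (SlabTree.splitK 678 (SlabTree.splitH 554 (SlabTree.splitV 378 (SlabTree.splitK 672 (SlabTree.leaf (52714) (108367) 1) (SlabTree.leaf (50123) (109096) 2)) (SlabTree.leaf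 (50123) (109096) 8)) (SlabTree.leaf (36953) (114869) 4)) (SlabTree.splitH 554 (SlabTree.leaf (45239) (110469) 2) (SlabTree.leaf (32211) (116257) 8))) (SlabTree.leaf (45239) (110469) 8)) (SlabTree.leaf (19136) (122355) 2)) (SlabTree.leaf (45239) (110469) 4)) (SlabTree.splitV 405 (SlabTree.splitH 565 (SlabTree.splitK 704 (SlabTree.splitV 387 (SlabTree.splitH 554 (SlabTree.leaf (39469) (112092) 8) (SlabTree.leaf (23086) (118928) 16)) (SlabTree.leaf (41153) (111618) 16)) (SlabTree.leaf (30628) (114578) 8)) (SlabTree.leaf (1989) (127576) 64)) (SlabTree.leaf (37685) (112593) 16))) SlabTree.triv) (SlabTree.splitH 588 (SlabTree.leaf (37685) (112593) 64) SlabTree.triv))) SlabTree.triv) (SlabTree.splitH 634 (SlabTree.splitK 768 (SlabTree.splitV 441 (SlabTree.splitH 588 (SlabTree.splitK 742 (SlabTree.splitV 405 (SlabTree.splitH 565 (SlabTree.leaf (19963) (117577) 32) (SlabTree.leaf (60) (128163) 64)) (SlabTree.leaf (32310) (114105) 32)) (SlabTree.leaf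 (34) (123180) 64)) SlabTree.triv) (SlabTree.splitH 588 (SlabTree.leaf (28009) (115314) 64) SlabTree.triv)) (SlabTree.leaf (27) (123182) 64)) SlabTree.triv))) (SlabTree.splitH 543 (SlabTree.splitK 921 (SlabTree.splitH 452 (SlabTree.splitK 870 (SlabTree.leaf (67659) (73670) 32) (SlabTree.leaf (28194) (78602) 64)) (SlabTree.leaf (-1848) (102904) 32)) (SlabTree.splitK 972 (SlabTree.leaf (-11694) (83587) 64) (SlabTree.splitH 452 (SlabTree.leaf (-93859) (93856) 32) (SlabTree.leaf (-127363) (127360) 64)))) (SlabTree.splitK 921 (SlabTree.splitH 634 (SlabTree.splitK 870 (SlabTree.leaf (-1545) (123624) 64) (SlabTree.leaf (-41269) (134795) 64)) (SlabTree.splitK 870 (SlabTree.leaf (-25289) (140763) 64) (SlabTree.leaf (-69687) (157783) 64))) (SlabTree.splitH 634 (SlabTree.leaf (-171385) (171382) 8) (SlabTree.leaf (-212550) (212547) 64))))))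

set_option maxRecDepth 100000 in
theorem slabData_ok : checkSlab slabData 0 725 615 1024 370 512 = true := by
  decide +kernel

end Vale.Agent.Lib.P232.Cells
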